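import Vale.Agent.P358.Defs

/-!
# P358: convexity of the minimal output entropy

`gmin` is Wootters' convex increasing function of the concurrence, which is convex in the input
population.
-/

namespace VAgent.P358

open Set

/-- Wootters' function. -/
noncomputable def woot (C : ℝ) : ℝ := Real.binEntropy ((1 - Real.sqrt (1 - C ^ 2)) / 2)

/-- The concurrence of the pure input with population `q`. -/
noncomputable def conc (γ ν q : ℝ) : ℝ :=
  2 * Real.sqrt (γ * (1 - γ) * (q - ν) ^ 2 + γ * ν * (1 - ν))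

theorem sinh_convexOn : ConvexOn ℝ (Ici (0:ℝ)) Real.sinh := by
  refine MonotoneOn.convexOn_of_deriv (convex_Ici 0) Real.continuous_sinh.continuousOn
    Real.differentiable_sinh.differentiableOn ?_
  rw [interior_Ici, Real.deriv_sinh]
  intro a ha b hb hab
  rw [Real.cosh_le_cosh, abs_of_pos ha, abs_of_pos hb]
  exact hab

theorem div_sinh_anti {u v : ℝ} (hu : 0 < u) (huv : u ≤ v) :
    v / Real.sinh v ≤ u / Real.sinh u := by
  have hv : 0 < v := hu.trans_le huv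
  have h := sinh_convexOn.secant_mono (a := 0) (x := u) (y := v) self_mem_Ici hu.le hv.le hu.ne'
    hv.ne' huv
  simp only [Real.sinh_zero, sub_zero] at h
  rw [div_le_div_iff₀ (Real.sinh_pos_iff.2 hv) (Real.sinh_pos_iff.2 hu)]
  rw [div_le_div_iff₀ hu hv] at h
  linarith

theorem sqrt_one_sub_sq_mem {C : ℝ} (hC : C ∈ Ioo (0:ℝ) 1) :
    Real.sqrt (1 - C ^ 2) ∈ Ioo (0:ℝ) 1 := by
  have h1 : 0 < 1 - C ^ 2 := by nlinarith [hC.1, hC.2]
  refine ⟨Real.sqrt_pos.2 h1, ?_⟩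
  rw [Real.sqrt_lt' one_pos]
  nlinarith [hC.1]

theorem hasDerivAt_woot {C : ℝ} (hC : C ∈ Ioo (0:ℝ) 1) :
    HasDerivAt woot (Real.artanh (Real.sqrt (1 - C ^ 2))
      / Real.sinh (Real.artanh (Real.sqrt (1 - C ^ 2)))) C := by
  obtain ⟨hx0, hx1⟩ := sqrt_one_sub_sq_mem hC
  set x := Real.sqrt (1 - C ^ 2) with hx
  have h1 : 0 < 1 - C ^ 2 := by nlinarith [hC.1, hC.2]
  have hsq : 1 - x ^ 2 = C ^ 2 := by rw [hx, Real.sq_sqrt h1.le]; ring
  have hs : HasDerivAt (fun C : ℝ => Real.sqrt (1 - C ^ 2)) (-C / x) C := by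
    have := ((hasDerivAt_id C).pow 2).const_sub 1 |>.sqrt h1.ne'
    refine this.congr_deriv ?_
    simp only [Pi.pow_apply, id_eq, ← hx]
    field_simp
    ring
  have hp : HasDerivAt (fun C : ℝ => (1 - Real.sqrt (1 - C ^ 2)) / 2) (-(-C / x) / 2) C :=
    (hs.const_sub 1).div_const 2
  have hb := Real.hasDerivAt_binEntropy (p := (1 - x) / 2) (by linarith) (by linarith)
  refine (hb.comp C hp).congr_deriv ?_
  rw [Real.artanh_eq_half_log ⟨by linarith, hx1.le⟩,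
    ← Real.artanh_eq_half_log ⟨by linarith, hx1.le⟩, Real.sinh_artanh ⟨by linarith, hx1⟩, hsq,
    Real.sqrt_sq hC.1.le, Real.artanh_eq_half_log ⟨by linarith, hx1.le⟩,
    show 1 - (1 - x) / 2 = (1 + x) / 2 by ring, ← Real.log_div (by linarith) (by linarith),
    div_div_div_cancel_right₀ (by norm_num : (2:ℝ) ≠ 0)]
  field_simp

theorem woot_continuous : Continuous woot := by
  unfold woot
  fun_prop

theorem woot_monotoneOn : MonotoneOn woot (Icc (0:ℝ) 1) := by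
  refine monotoneOn_of_deriv_nonneg (convex_Icc 0 1) woot_continuous.continuousOn ?_ ?_
  · rw [interior_Icc]
    exact fun C hC => (hasDerivAt_woot hC).differentiableAt.differentiableWithinAt
  · rw [interior_Icc]
    intro C hC
    rw [(hasDerivAt_woot hC).deriv]
    have := Real.artanh_pos (sqrt_one_sub_sq_mem hC)
    exact div_nonneg this.le (Real.sinh_pos_iff.2 this).le

theorem woot_convexOn : ConvexOn ℝ (Icc (0:ℝ) 1) woot := by
  refine MonotoneOn.convexOn_of_deriv (convex_Icc 0 1) woot_continuous.continuousOn ?_ ?_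
  · rw [interior_Icc]
    exact fun C hC => (hasDerivAt_woot hC).differentiableAt.differentiableWithinAt
  · rw [interior_Icc]
    intro a ha b hb hab
    rw [(hasDerivAt_woot ha).deriv, (hasDerivAt_woot hb).deriv]
    have hxa := sqrt_one_sub_sq_mem ha
    have hxb := sqrt_one_sub_sq_mem hb
    refine div_sinh_anti (Real.artanh_pos hxb) (Real.artanh_le_artanh (by linarith [hxb.1]) hxa.2 ?_)
    exact Real.sqrt_le_sqrt (by nlinarith [ha.1])

theorem conc_sq {γ ν q : ℝ} (hγ : γ ∈ Icc (0:ℝ) 1) (hν : ν ∈ Icc (0:ℝ) 1) :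
    1 - conc γ ν q ^ 2 = (1 - 2 * outPop γ ν q) ^ 2 + 4 * (1 - γ) * (q * (1 - q)) := by
  have h1 : 0 ≤ γ * (1 - γ) := mul_nonneg hγ.1 (sub_nonneg.2 hγ.2)
  have h2 : 0 ≤ γ * ν * (1 - ν) := mul_nonneg (mul_nonneg hγ.1 hν.1) (sub_nonneg.2 hν.2)
  rw [conc, mul_pow, Real.sq_sqrt (by positivity), outPop]
  ring

theorem conc_mem {γ ν q : ℝ} (hγ : γ ∈ Icc (0:ℝ) 1) (hν : ν ∈ Icc (0:ℝ) 1)
    (hq : q ∈ Icc (0:ℝ) 1) : conc γ ν q ∈ Icc (0:ℝ) 1 := by
  have h0 : 0 ≤ conc γ ν q := by unfold conc; positivity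
  refine ⟨h0, ?_⟩
  have h1 : 0 ≤ 4 * (1 - γ) * (q * (1 - q)) :=
    mul_nonneg (mul_nonneg (by norm_num) (sub_nonneg.2 hγ.2))
      (mul_nonneg hq.1 (sub_nonneg.2 hq.2))
  have h := conc_sq (q := q) hγ hν
  nlinarith [sq_nonneg (1 - 2 * outPop γ ν q)]

theorem gmin_eq_woot {γ ν q : ℝ} (hγ : γ ∈ Icc (0:ℝ) 1) (hν : ν ∈ Icc (0:ℝ) 1) :
    gmin γ ν q = woot (conc γ ν q) := by
  rw [gmin, woot, conc_sq hγ hν]

theorem sqrt_affine_le {A B : ℝ} (hA : 0 ≤ A) (hB : 0 ≤ B) (s t : ℝ) {a b : ℝ} (ha : 0 ≤ a)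
    (hb : 0 ≤ b) (hab : a + b = 1) :
    Real.sqrt (A * (a * s + b * t) ^ 2 + B)
      ≤ a * Real.sqrt (A * s ^ 2 + B) + b * Real.sqrt (A * t ^ 2 + B) := by
  have hs : 0 ≤ A * s ^ 2 + B := by positivity
  have ht : 0 ≤ A * t ^ 2 + B := by positivity
  rw [Real.sqrt_le_left (by positivity)]
  have hcross : A * s * t + B ≤ Real.sqrt (A * s ^ 2 + B) * Real.sqrt (A * t ^ 2 + B) := by
    rw [← Real.sqrt_mul hs]
    apply Real.le_sqrt_of_sq_le
    nlinarith [mul_nonneg (mul_nonneg hA hB) (sq_nonneg (s - t))]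
  obtain rfl : b = 1 - a := by linarith
  have e : (a * Real.sqrt (A * s ^ 2 + B) + (1 - a) * Real.sqrt (A * t ^ 2 + B)) ^ 2
      = a ^ 2 * (A * s ^ 2 + B) + 2 * (a * (1 - a))
          * (Real.sqrt (A * s ^ 2 + B) * Real.sqrt (A * t ^ 2 + B))
        + (1 - a) ^ 2 * (A * t ^ 2 + B) := by
    rw [add_sq, mul_pow, mul_pow, Real.sq_sqrt hs, Real.sq_sqrt ht]
    ring
  rw [e]
  linear_combination 2 * mul_le_mul_of_nonneg_left hcross (mul_nonneg ha hb)

theorem conc_convexOn {γ ν : ℝ} (hγ : γ ∈ Icc (0:ℝ) 1) (hν : ν ∈ Icc (0:ℝ) 1) :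
    ConvexOn ℝ univ (conc γ ν) := by
  refine ⟨convex_univ, fun s _ t _ a b ha hb hab => ?_⟩
  have h := sqrt_affine_le (A := γ * (1 - γ)) (B := γ * ν * (1 - ν))
    (mul_nonneg hγ.1 (sub_nonneg.2 hγ.2))
    (mul_nonneg (mul_nonneg hγ.1 hν.1) (sub_nonneg.2 hν.2)) (s - ν) (t - ν) ha hb hab
  rw [show a * (s - ν) + b * (t - ν) = a * s + b * t - ν by linear_combination -ν * hab] at h
  simp only [conc, smul_eq_mul]
  linarith

theorem gmin_convexOn {γ ν : ℝ} (hγ : γ ∈ Set.Icc (0:ℝ) 1) (hν : ν ∈ Set.Icc (0:ℝ) 1) :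
    ConvexOn ℝ (Set.Icc (0:ℝ) 1) (gmin γ ν) := by
  refine ⟨convex_Icc 0 1, fun s hs t ht a b ha hb hab => ?_⟩
  rw [gmin_eq_woot hγ hν, gmin_eq_woot hγ hν, gmin_eq_woot hγ hν]
  refine le_trans (woot_monotoneOn (conc_mem hγ hν (convex_Icc 0 1 hs ht ha hb hab))
    (convex_Icc 0 1 (conc_mem hγ hν hs) (conc_mem hγ hν ht) ha hb hab)
    ((conc_convexOn hγ hν).2 (mem_univ s) (mem_univ t) ha hb hab)) ?_
  exact woot_convexOn.2 (conc_mem hγ hν hs) (conc_mem hγ hν ht) ha hb hab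

/-- Homogenised form used in the induction. -/
theorem qub_eq_gmin {γ ν : ℝ} (_hγ : γ ∈ Set.Icc (0:ℝ) 1) (_hν : ν ∈ Set.Icc (0:ℝ) 1)
    {p q : ℝ} (hp : 0 ≤ p) (hq : 0 ≤ q) :
    qub γ ν p q = Real.negMulLog (p + q) + (p + q) * gmin γ ν (q / (p + q)) := by
  rcases eq_or_lt_of_le (add_nonneg hp hq) with h0 | h0
  · obtain rfl : p = 0 := by linarith
    obtain rfl : q = 0 := by linarith
    simp [qub]
  set S := p + q with hS
  set r := q / S with hr
  set D := (1 - 2 * outPop γ ν r) ^ 2 + 4 * (1 - γ) * (r * (1 - r)) with hD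
  have hq' : q = S * r := by rw [hr]; field_simp
  have hp' : p = S * (1 - r) := by rw [mul_sub, mul_one, ← hq', hS]; ring
  have hXY : (1 - γ * ν) * p + γ * (1 - ν) * q + (γ * ν * p + (1 - γ + γ * ν) * q) = S := by
    rw [hS]; ring
  have hd : ((1 - γ * ν) * p + γ * (1 - ν) * q - (γ * ν * p + (1 - γ + γ * ν) * q)) ^ 2
      + 4 * (1 - γ) * (p * q) = S ^ 2 * D := by
    rw [hD, hq', hp', outPop]; ring
  simp only [qub]
  rw [hXY, hd, Real.sqrt_mul (sq_nonneg S), Real.sqrt_sq h0.le, gmin, ← hD,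
    Real.binEntropy_eq_negMulLog_add_negMulLog_one_sub,
    show (S + S * Real.sqrt D) / 2 = S * ((1 + Real.sqrt D) / 2) by ring,
    show (S - S * Real.sqrt D) / 2 = S * ((1 - Real.sqrt D) / 2) by ring,
    show 1 - (1 - Real.sqrt D) / 2 = (1 + Real.sqrt D) / 2 by ring,
    Real.negMulLog_mul, Real.negMulLog_mul]
  ring

end VAgent.P358
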