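import Vale.Agent.P358.Defs

/-!
# P358: sums over eigenvalues
-/

namespace VAgent.P358

open Matrix Polynomial
open scoped ComplexOrder

variable {ι : Type*} [Fintype ι] [DecidableEq ι]

theorem charpoly_conj_diag (U : Matrix ι ι ℂ) (hU : U * Uᴴ = 1) (d : ι → ℂ) :
    (U * Matrix.diagonal d * Uᴴ).charpoly = ∏ i, (Polynomial.X - Polynomial.C (d i)) := by
  have hU' : Uᴴ * U = 1 := mul_eq_one_comm.mp hU
  rw [Matrix.mul_assoc, Matrix.charpoly_mul_comm, Matrix.mul_assoc, hU', Matrix.mul_one,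
    Matrix.charpoly_diagonal]

theorem sumEig_of_diag {M : Matrix ι ι ℂ} (hM : M.IsHermitian) (U : Matrix ι ι ℂ)
    (hU : U * Uᴴ = 1) (d : ι → ℝ) (h : M = U * Matrix.diagonal (fun i => (d i : ℂ)) * Uᴴ)
    (f : ℝ → ℝ) : ∑ k, f (hM.eigenvalues k) = ∑ i, f (d i) := by
  have h1 := hM.roots_charpoly_eq_eigenvalues
  have h2 : M.charpoly.roots = Finset.univ.val.map fun i => (d i : ℂ) := by
    rw [h, charpoly_conj_diag U hU]
    rw [Polynomial.roots_prod]
    · simp
    · exact Finset.prod_ne_zero_iff.mpr fun i _ => Polynomial.X_sub_C_ne_zero _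
  rw [h2] at h1
  have h3 := congrArg (fun s : Multiset ℂ => (s.map fun z => f z.re).sum) h1
  simp only [Multiset.map_map, Function.comp_def] at h3
  simpa using h3.symm

/-- Eigenvalue sums of a real multiple. -/
theorem sumEig_smul {M : Matrix ι ι ℂ} (hM : M.IsHermitian) (c : ℝ)
    (hc : ((c : ℂ) • M).IsHermitian) (f : ℝ → ℝ) :
    ∑ k, f (hc.eigenvalues k) = ∑ k, f (c * hM.eigenvalues k) := by
  refine sumEig_of_diag hc (hM.eigenvectorUnitary : Matrix ι ι ℂ) ?_ _ ?_ f
  · exact Matrix.mem_unitaryGroup_iff.mp hM.eigenvectorUnitary.2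
  · conv_lhs => rw [hM.spectral_theorem, Unitary.conjStarAlgAut_apply]
    rw [Matrix.star_eq_conjTranspose, ← Matrix.smul_mul, ← Matrix.mul_smul, ← Matrix.diagonal_smul]
    congr 3
    funext i
    simp [-Complex.coe_smul]

theorem sumEig_real {M : Matrix ι ι ℂ} (hM : M.IsHermitian) :
    ∑ k, hM.eigenvalues k = M.trace.re := by
  rw [hM.trace_eq_sum_eigenvalues]
  simp

theorem nent_eq {M : Matrix ι ι ℂ} (hM : M.IsHermitian) :
    nent M = ∑ k, Real.negMulLog (hM.eigenvalues k) := by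
  rw [nent, dif_pos hM]

/-- Entropy of a real multiple. -/
theorem nent_smul {M : Matrix ι ι ℂ} (hM : M.IsHermitian) (c : ℝ) :
    nent ((c : ℂ) • M) = c * nent M + Real.negMulLog c * M.trace.re := by
  have hc : ((c : ℂ) • M).IsHermitian := by
    show _ = _
    rw [Matrix.conjTranspose_smul, hM.eq]
    simp
  rw [nent_eq hc, nent_eq hM, sumEig_smul hM c hc, ← sumEig_real hM, Finset.mul_sum, Finset.mul_sum,
    ← Finset.sum_add_distrib]
  refine Finset.sum_congr rfl fun k _ => ?_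
  rw [Real.negMulLog_mul]
  ring

end VAgent.P358
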