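import Vale.Agent.P358.Defs

/-!
# P358: eigenvalue facts
-/

namespace VAgent.P358

open Matrix
open scoped ComplexOrder

variable {ι : Type*} [Fintype ι] [DecidableEq ι]

/-- Spectral decomposition with explicit matrices. -/
theorem spectral_decomp {M : Matrix ι ι ℂ} (hM : M.IsHermitian) :
    ∃ U : Matrix ι ι ℂ, U * Uᴴ = 1 ∧ Uᴴ * U = 1 ∧
      M = U * Matrix.diagonal (fun i => (hM.eigenvalues i : ℂ)) * Uᴴ := by
  refine ⟨↑hM.eigenvectorUnitary, Unitary.coe_mul_star_self hM.eigenvectorUnitary,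
    Unitary.coe_star_mul_self hM.eigenvectorUnitary, ?_⟩
  have h := hM.spectral_theorem
  rw [Unitary.conjStarAlgAut_apply] at h
  exact h

theorem charpoly_conj (U : Matrix ι ι ℂ) (hU : U * Uᴴ = 1) (M : Matrix ι ι ℂ) :
    (U * M * Uᴴ).charpoly = M.charpoly := by
  rw [Matrix.charpoly_mul_comm, ← Matrix.mul_assoc, mul_eq_one_comm.mp hU, Matrix.one_mul]

/-- A sum over eigenvalues can be read off any unitary diagonalisation. -/
theorem eig_sum_of_diag (U : Matrix ι ι ℂ) (hU : U * Uᴴ = 1) (d : ι → ℝ) {M : Matrix ι ι ℂ}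
    (hM : M.IsHermitian) (h : M = U * Matrix.diagonal (fun i => (d i : ℂ)) * Uᴴ) (f : ℝ → ℝ) :
    ∑ i, f (hM.eigenvalues i) = ∑ i, f (d i) := by
  have h1 := hM.roots_charpoly_eq_eigenvalues
  have h2 : M.charpoly = ∏ i, (Polynomial.X - Polynomial.C (d i : ℂ)) := by
    rw [h, charpoly_conj U hU, Matrix.charpoly_diagonal]
  rw [h2, Polynomial.roots_prod _ _ (Finset.prod_ne_zero_iff.mpr
    fun i _ => Polynomial.X_sub_C_ne_zero _)] at h1
  simp only [Polynomial.roots_X_sub_C, Multiset.bind_singleton] at h1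
  have h3 := congrArg (fun s : Multiset ℂ => (s.map fun z => f z.re).sum) h1
  simp only [Multiset.map_map] at h3
  rw [Finset.sum_eq_multiset_sum, Finset.sum_eq_multiset_sum]
  simpa only [Function.comp_def, RCLike.ofReal_eq_complex_ofReal, Complex.ofReal_re]
    using h3.symm

theorem isHermitian_conj_diag (U : Matrix ι ι ℂ) (d : ι → ℝ) :
    (U * Matrix.diagonal (fun i => (d i : ℂ)) * Uᴴ).IsHermitian := by
  apply Matrix.isHermitian_mul_mul_conjTranspose
  exact Matrix.isHermitian_diagonal_of_self_adjoint _ (funext fun i => Complex.conj_ofReal (d i))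

/-- Entropy can be read off any unitary diagonalisation. -/
theorem nent_eq_of_diag (U : Matrix ι ι ℂ) (hU : U * Uᴴ = 1) (d : ι → ℝ) :
    nent (U * Matrix.diagonal (fun i => (d i : ℂ)) * Uᴴ) = ∑ i, Real.negMulLog (d i) := by
  rw [nent, dif_pos (isHermitian_conj_diag U d)]
  exact eig_sum_of_diag U hU d _ rfl _

theorem nent_reindex {κ : Type*} [Fintype κ] [DecidableEq κ] (e : ι ≃ κ) (M : Matrix ι ι ℂ) :
    nent (Matrix.reindex e e M) = nent M := by
  by_cases h : M.IsHermitian
  · have h' : (Matrix.reindex e e M).IsHermitian := h.submatrix _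
    rw [nent, nent, dif_pos h, dif_pos h']
    have h1 := h'.roots_charpoly_eq_eigenvalues
    rw [Matrix.charpoly_reindex, h.roots_charpoly_eq_eigenvalues] at h1
    have h3 := congrArg (fun s : Multiset ℂ => (s.map fun z => Real.negMulLog z.re).sum) h1
    simp only [Multiset.map_map] at h3
    rw [Finset.sum_eq_multiset_sum, Finset.sum_eq_multiset_sum]
    simpa only [Function.comp_def, RCLike.ofReal_eq_complex_ofReal, Complex.ofReal_re]
      using h3.symm
  · have h' : ¬ (Matrix.reindex e e M).IsHermitian := by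
      intro h'
      apply h
      have := h'.submatrix e
      simpa using this
    rw [nent, nent, dif_neg h, dif_neg h']

theorem sum_eval_eigenvalues {M : Matrix ι ι ℂ} (hM : M.IsHermitian) (p : Polynomial ℝ) :
    ∑ k, p.eval (hM.eigenvalues k) = (Polynomial.aeval M p).trace.re := by
  obtain ⟨U, hU, hU', h⟩ := spectral_decomp hM
  have hpow : ∀ n : ℕ, M ^ n
      = U * Matrix.diagonal (fun i => ((hM.eigenvalues i ^ n : ℝ) : ℂ)) * Uᴴ := by
    intro n
    induction n with
    | zero => simp [hU]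
    | succ n ih =>
      rw [pow_succ, ih]
      refine (congrArg (fun Z => _ * Z) h).trans ?_
      rw [show U * diagonal (fun i => ((hM.eigenvalues i ^ n : ℝ) : ℂ)) * Uᴴ *
          (U * diagonal (fun i => (hM.eigenvalues i : ℂ)) * Uᴴ)
        = U * (diagonal (fun i => ((hM.eigenvalues i ^ n : ℝ) : ℂ)) * (Uᴴ * U) *
          diagonal (fun i => (hM.eigenvalues i : ℂ))) * Uᴴ by simp only [Matrix.mul_assoc],
        hU', Matrix.mul_one, Matrix.diagonal_mul_diagonal]
      simp [pow_succ]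
  induction p using Polynomial.induction_on' with
  | add p q hp hq => simp [Finset.sum_add_distrib, hp, hq, Matrix.trace_add]
  | monomial n c =>
    rw [Polynomial.aeval_monomial, ← Algebra.smul_def, Matrix.trace_smul, hpow,
      Matrix.trace_mul_comm, ← Matrix.mul_assoc, hU', Matrix.one_mul, Matrix.trace_diagonal]
    simp [Finset.mul_sum, Complex.re_sum]
    exact Finset.sum_congr rfl fun k _ => by rw [← Complex.ofReal_pow, Complex.ofReal_re]

/-- Continuity of the entropy along a continuous family of positive semidefinite matrices. -/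
theorem continuous_nent {X : Type*} [TopologicalSpace X] (M : X → Matrix ι ι ℂ)
    (hc : Continuous M) (hp : ∀ x, (M x).PosSemidef) : Continuous fun x => nent (M x) := by
  have hn : (fun x => nent (M x)) = fun x => ∑ k, Real.negMulLog ((hp x).1.eigenvalues k) := by
    funext x
    rw [nent, dif_pos (hp x).1]
  rw [hn, continuous_iff_continuousAt]
  intro x₀
  set R : ℝ := (M x₀).trace.re + 1 with hR
  have hU : {x | (M x).trace.re < R} ∈ nhds x₀ := by
    refine (isOpen_lt ?_ continuous_const).mem_nhds (by simp [hR])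
    exact Complex.continuous_re.comp hc.matrix_trace
  refine ContinuousWithinAt.continuousAt ?_ hU
  refine (continuousOn_of_uniform_approx_of_continuousOn ?_) x₀ (by simp [hR])
  intro u hu
  obtain ⟨ε, hε, hu⟩ := Metric.mem_uniformity_dist.mp hu
  set δ : ℝ := ε / ((Fintype.card ι : ℝ) + 1) with hδ
  have hδ0 : 0 < δ := by positivity
  obtain ⟨p, hpe⟩ := exists_polynomial_near_of_continuousOn 0 R Real.negMulLog
    Real.continuous_negMulLog.continuousOn δ hδ0
  refine ⟨fun x => ∑ k, p.eval ((hp x).1.eigenvalues k), ?_, fun x hx => hu ?_⟩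
  · have : (fun x => ∑ k, p.eval ((hp x).1.eigenvalues k))
        = fun x => (Polynomial.aeval (M x) p).trace.re := funext fun x => sum_eval_eigenvalues _ p
    rw [this]
    refine (Complex.continuous_re.comp (Continuous.matrix_trace ?_)).continuousOn
    exact p.continuous_aeval.comp hc
  · have hk : ∀ k, (hp x).1.eigenvalues k ∈ Set.Icc (0 : ℝ) R := by
      intro k
      refine ⟨(hp x).eigenvalues_nonneg k, le_of_lt (lt_of_le_of_lt ?_ hx)⟩
      rw [(hp x).1.trace_eq_sum_eigenvalues]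
      simp only [Complex.re_sum, Complex.coe_algebraMap, Complex.ofReal_re]
      exact Finset.single_le_sum (fun i _ => (hp x).eigenvalues_nonneg i) (Finset.mem_univ k)
    rw [Real.dist_eq, ← Finset.sum_sub_distrib]
    calc |∑ k, (Real.negMulLog ((hp x).1.eigenvalues k) - p.eval ((hp x).1.eigenvalues k))|
        ≤ ∑ k, |Real.negMulLog ((hp x).1.eigenvalues k) - p.eval ((hp x).1.eigenvalues k)| :=
          Finset.abs_sum_le_sum_abs _ _
      _ ≤ ∑ _k : ι, δ := Finset.sum_le_sum fun k _ => by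
          rw [abs_sub_comm]; exact (hpe _ (hk k)).le
      _ < ε := by
          rw [Finset.sum_const, Finset.card_univ, nsmul_eq_mul, hδ, ← mul_div_assoc,
            div_lt_iff₀ (by positivity)]
          nlinarith

theorem logDet_eq_sum {M : Matrix ι ι ℂ} (hM : M.PosSemidef) {s : ℝ} (hs : 0 < s) :
    Real.log ((s : ℂ) • (1 : Matrix ι ι ℂ) + M).det.re
      = ∑ k, Real.log (s + hM.1.eigenvalues k) := by
  obtain ⟨U, hU, hU', h⟩ := spectral_decomp hM.1
  have e : (s : ℂ) • (1 : Matrix ι ι ℂ) + M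
      = U * Matrix.diagonal (fun i => ((s + hM.1.eigenvalues i : ℝ) : ℂ)) * Uᴴ := by
    have : Matrix.diagonal (fun i => ((s + hM.1.eigenvalues i : ℝ) : ℂ))
        = (s : ℂ) • (1 : Matrix ι ι ℂ) + Matrix.diagonal (fun i => (hM.1.eigenvalues i : ℂ)) := by
      ext i j
      by_cases hij : i = j
      · subst hij; simp
      · simp [hij]
    rw [this, Matrix.mul_add, Matrix.add_mul, ← h]
    simp [hU]
  rw [e, Matrix.det_mul, Matrix.det_mul, mul_right_comm, ← Matrix.det_mul, hU, Matrix.det_one,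
    one_mul, Matrix.det_diagonal, ← Complex.ofReal_prod, Complex.ofReal_re,
    Real.log_prod (fun i _ => ?_)]
  have := hM.eigenvalues_nonneg i
  positivity

/-- Simultaneous diagonalisation by congruence. -/
theorem exists_congr_diag {A M : Matrix ι ι ℂ} (hA : A.PosDef) (hM : M.PosDef) :
    ∃ (T : Matrix ι ι ℂ) (y : ι → ℝ), (∀ i, 0 < y i) ∧ IsUnit T.det ∧ T * Tᴴ = A ∧
      T * Matrix.diagonal (fun i => (y i : ℂ)) * Tᴴ = M := by
  obtain ⟨U, hU, hU', h⟩ := spectral_decomp hA.1
  set a := hA.1.eigenvalues with ha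
  set S : Matrix ι ι ℂ := U * Matrix.diagonal (fun i => (Real.sqrt (a i) : ℂ)) with hS
  set S' : Matrix ι ι ℂ := Matrix.diagonal (fun i => ((Real.sqrt (a i))⁻¹ : ℂ)) * Uᴴ with hS'
  have hpos : ∀ i, 0 < a i := hA.eigenvalues_pos
  have hne : ∀ i, (Real.sqrt (a i) : ℂ) ≠ 0 := fun i =>
    Complex.ofReal_ne_zero.mpr (Real.sqrt_pos.mpr (hpos i)).ne'
  have hSS' : S * S' = 1 := by
    rw [hS, hS', Matrix.mul_assoc, ← Matrix.mul_assoc (Matrix.diagonal _),
      Matrix.diagonal_mul_diagonal]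
    simp [hne, hU]
  have hSA : S * Sᴴ = A := by
    rw [h, hS, Matrix.conjTranspose_mul, Matrix.diagonal_conjTranspose, ← Matrix.mul_assoc,
      Matrix.mul_assoc U, Matrix.diagonal_mul_diagonal]
    congr 2
    ext i j
    by_cases hij : i = j
    · subst hij
      simp [← Complex.ofReal_mul, Real.mul_self_sqrt (hpos i).le]
    · simp [hij]
  have hS'u : IsUnit S' := IsUnit.of_mul_eq_one S (mul_eq_one_comm.mp hSS')
  have hN : (S' * M * S'ᴴ).PosDef :=
    (Matrix.IsUnit.posDef_star_right_conjugate_iff hS'u).mpr hM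
  obtain ⟨V, hV, hV', hN'⟩ := spectral_decomp hN.1
  refine ⟨S * V, hN.1.eigenvalues, hN.eigenvalues_pos, ?_, ?_, ?_⟩
  · rw [Matrix.det_mul]
    exact ((Matrix.isUnit_iff_isUnit_det S).mp (IsUnit.of_mul_eq_one S' hSS')).mul
      ((Matrix.isUnit_iff_isUnit_det V).mp (IsUnit.of_mul_eq_one Vᴴ hV))
  · rw [Matrix.conjTranspose_mul, Matrix.mul_assoc, ← Matrix.mul_assoc V, hV, Matrix.one_mul, hSA]
  · generalize hN.1.eigenvalues = w at hN' ⊢
    rw [Matrix.conjTranspose_mul,
      show S * V * Matrix.diagonal (fun i => (w i : ℂ)) * (Vᴴ * Sᴴ)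
        = S * (V * Matrix.diagonal (fun i => (w i : ℂ)) * Vᴴ) * Sᴴ by
          simp only [Matrix.mul_assoc], ← hN',
      show S * (S' * M * S'ᴴ) * Sᴴ = (S * S') * M * (S * S')ᴴ by
          simp only [Matrix.mul_assoc, Matrix.conjTranspose_mul], hSS']
    simp

/-- One half of Sylvester inertia. -/
theorem card_pos_le {W : Matrix ι ι ℂ} {μ δ : ι → ℝ}
    (h : Matrix.diagonal (fun i => (μ i : ℂ))
      = W * Matrix.diagonal (fun i => (δ i : ℂ)) * Wᴴ) :
    (Finset.univ.filter fun i => 0 < μ i).card ≤ (Finset.univ.filter fun i => 0 < δ i).card := by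
  by_contra hlt
  rw [not_le] at hlt
  let L : (↥(Finset.univ.filter fun i => 0 < μ i) → ℂ) →ₗ[ℂ]
      (↥(Finset.univ.filter fun i => 0 < δ i) → ℂ) :=
    Matrix.mulVecLin (Wᴴ.submatrix Subtype.val Subtype.val)
  have hker : LinearMap.ker L ≠ ⊥ := by
    apply LinearMap.ker_ne_bot_of_finrank_lt
    simpa [Fintype.card_subtype] using hlt
  obtain ⟨z, hz, hz0⟩ := Submodule.exists_mem_ne_zero_of_ne_bot hker
  set x : ι → ℂ := fun i => if hi : i ∈ Finset.univ.filter (fun i => 0 < μ i) then z ⟨i, hi⟩ else 0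
    with hx
  have hq : ∀ (v : ι → ℂ) (c : ι → ℝ),
      (star v ⬝ᵥ (Matrix.diagonal (fun i => (c i : ℂ)) *ᵥ v)).re
        = ∑ i, c i * Complex.normSq (v i) := by
    intro v c
    simp only [dotProduct, Pi.star_apply, Matrix.mulVec_diagonal, Complex.re_sum]
    refine Finset.sum_congr rfl fun i _ => ?_
    simp [Complex.normSq_apply]
    ring
  have hw : ∀ i ∈ Finset.univ.filter (fun i => 0 < δ i), (Wᴴ *ᵥ x) i = 0 := by
    intro i hi
    have h0 : L z ⟨i, hi⟩ = 0 := by rw [LinearMap.mem_ker.mp hz]; rfl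
    rw [← h0]
    simp only [L, Matrix.mulVecLin_apply, Matrix.mulVec, dotProduct, Matrix.submatrix_apply]
    have hs := Finset.sum_coe_sort (Finset.univ.filter fun j => 0 < μ j) (fun j => Wᴴ i j * x j)
    have he : ∑ j, Wᴴ i j * x j
        = ∑ j ∈ Finset.univ.filter (fun j => 0 < μ j), Wᴴ i j * x j :=
      (Finset.sum_subset (Finset.subset_univ _) fun j _ hj => by
        simp only [hx, dif_neg hj, mul_zero]).symm
    rw [he, ← hs]
    refine Finset.sum_congr rfl fun j _ => ?_
    simp only [hx, dif_pos j.2, Subtype.coe_eta]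
  have hid : star x ⬝ᵥ (Matrix.diagonal (fun i => (μ i : ℂ)) *ᵥ x)
      = star (Wᴴ *ᵥ x) ⬝ᵥ (Matrix.diagonal (fun i => (δ i : ℂ)) *ᵥ (Wᴴ *ᵥ x)) := by
    rw [h, ← Matrix.mulVec_mulVec, ← Matrix.mulVec_mulVec, Matrix.star_mulVec,
      Matrix.conjTranspose_conjTranspose, ← Matrix.dotProduct_mulVec]
  have hre := congrArg Complex.re hid
  rw [hq, hq] at hre
  obtain ⟨j, hj⟩ := Function.ne_iff.mp hz0
  have hpos : 0 < ∑ i, μ i * Complex.normSq (x i) := by
    refine Finset.sum_pos' (fun i _ => ?_) ⟨j.1, Finset.mem_univ _, ?_⟩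
    · by_cases hi : i ∈ Finset.univ.filter (fun i => 0 < μ i)
      · exact mul_nonneg (Finset.mem_filter.mp hi).2.le (Complex.normSq_nonneg _)
      · rw [show x i = 0 by simp only [hx, dif_neg hi]]
        simp
    · refine mul_pos (Finset.mem_filter.mp j.2).2 (Complex.normSq_pos.mpr ?_)
      simp only [hx, dif_pos j.2]
      exact hj
  have hnp : ∑ i, δ i * Complex.normSq ((Wᴴ *ᵥ x) i) ≤ 0 := by
    refine Finset.sum_nonpos fun i _ => ?_
    by_cases hi : i ∈ Finset.univ.filter (fun i => 0 < δ i)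
    · simp [hw i hi]
    · exact mul_nonpos_of_nonpos_of_nonneg (not_lt.mp fun h => hi (by simp [h]))
        (Complex.normSq_nonneg _)
  linarith

/-- Sylvester inertia in the form used for the layers. -/
theorem count_layer {A B T : Matrix ι ι ℂ} {y : ι → ℝ} {s τ : ℝ} (hT : IsUnit T.det)
    (hA : T * Tᴴ = A) (hM : T * Matrix.diagonal (fun i => (y i : ℂ)) * Tᴴ
      = (s : ℂ) • (1 : Matrix ι ι ℂ) + B)
    (hH : ((τ : ℂ) • A - B).IsHermitian) :
    (Finset.univ.filter fun i => y i < τ).card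
      = (Finset.univ.filter fun k => s < hH.eigenvalues k).card := by
  obtain ⟨U, hU, hU', h⟩ := spectral_decomp hH
  set D1 := Matrix.diagonal (fun i => ((τ - y i : ℝ) : ℂ)) with hD1
  set D2 := Matrix.diagonal (fun i => ((hH.eigenvalues i - s : ℝ) : ℂ)) with hD2
  have e1 : T * D1 * Tᴴ = U * D2 * Uᴴ := by
    have a1 : D1 = (τ : ℂ) • (1 : Matrix ι ι ℂ) - Matrix.diagonal (fun i => (y i : ℂ)) := by
      rw [hD1]; ext i j
      by_cases hij : i = j
      · subst hij; simp
      · simp [hij]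
    have a2 : D2 = Matrix.diagonal (fun i => (hH.eigenvalues i : ℂ))
        - (s : ℂ) • (1 : Matrix ι ι ℂ) := by
      rw [hD2]; ext i j
      by_cases hij : i = j
      · subst hij; simp
      · simp [hij]
    rw [a1, a2, Matrix.mul_sub, Matrix.sub_mul, Matrix.mul_sub, Matrix.sub_mul, ← h]
    simp only [Matrix.mul_smul, Matrix.smul_mul, Matrix.mul_one, hA, hU, hM]
    abel
  have hi : T⁻¹ * T = 1 := Matrix.nonsing_inv_mul T hT
  have e2 : D1 = (T⁻¹ * U) * D2 * (T⁻¹ * U)ᴴ := by
    calc D1 = (T⁻¹ * T) * D1 * (T⁻¹ * T)ᴴ := by simp [hi]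
      _ = T⁻¹ * (T * D1 * Tᴴ) * T⁻¹ᴴ := by simp only [Matrix.mul_assoc, Matrix.conjTranspose_mul]
      _ = (T⁻¹ * U) * D2 * (T⁻¹ * U)ᴴ := by
          rw [e1]; simp only [Matrix.mul_assoc, Matrix.conjTranspose_mul]
  have e3 : D2 = (Uᴴ * T) * D1 * (Uᴴ * T)ᴴ := by
    calc D2 = (Uᴴ * U) * D2 * (Uᴴ * U)ᴴ := by simp [hU']
      _ = Uᴴ * (U * D2 * Uᴴ) * Uᴴᴴ := by simp only [Matrix.mul_assoc, Matrix.conjTranspose_mul]
      _ = (Uᴴ * T) * D1 * (Uᴴ * T)ᴴ := by
          rw [← e1]; simp only [Matrix.mul_assoc, Matrix.conjTranspose_mul]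
  have l1 := card_pos_le e2
  have l2 := card_pos_le e3
  simp only [sub_pos] at l1 l2
  omega

/-- Monotonicity of the sum of truncated positive parts. -/
theorem sum_posPart_mono {M N : Matrix ι ι ℂ} (hM : M.IsHermitian) (hN : N.IsHermitian)
    (hle : (N - M).PosSemidef) (L : ℝ) :
    ∑ k, max (hM.eigenvalues k - L) 0 ≤ ∑ k, max (hN.eigenvalues k - L) 0 := by
  obtain ⟨U, hU, hU', hUe⟩ := spectral_decomp hM
  obtain ⟨V, hV, hV', hVe⟩ := spectral_decomp hN
  set W := Vᴴ * U with hW
  have hWW : Wᴴ * W = 1 := by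
    rw [hW, Matrix.conjTranspose_mul, Matrix.conjTranspose_conjTranspose, Matrix.mul_assoc,
      ← Matrix.mul_assoc V, hV, Matrix.one_mul, hU']
  have hWW' : W * Wᴴ = 1 := mul_eq_one_comm.mp hWW
  have hcol : ∀ k, ∑ j, Complex.normSq (W j k) = 1 := fun k => by
    have e := congrArg Complex.re (congrFun (congrFun hWW k) k)
    simpa [Matrix.mul_apply, Complex.re_sum, ← Complex.normSq_eq_conj_mul_self] using e
  have hrow : ∀ j, ∑ k, Complex.normSq (W j k) = 1 := fun j => by
    have e := congrArg Complex.re (congrFun (congrFun hWW' j) j)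
    simpa [Matrix.mul_apply, Complex.re_sum, Complex.mul_conj] using e
  have hk : ∀ k, hM.eigenvalues k ≤ ∑ j, Complex.normSq (W j k) * hN.eigenvalues j := by
    intro k
    have h0 : 0 ≤ ((Uᴴ * (N - M) * U) k k).re :=
      (Complex.le_def.mp ((hle.conjTranspose_mul_mul_same U).diag_nonneg (i := k))).1
    have hMk : Uᴴ * M * U = Matrix.diagonal (fun i => (hM.eigenvalues i : ℂ)) := by
      conv_lhs => rw [hUe]
      rw [show Uᴴ * (U * Matrix.diagonal (fun i => (hM.eigenvalues i : ℂ)) * Uᴴ) * U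
        = (Uᴴ * U) * Matrix.diagonal (fun i => (hM.eigenvalues i : ℂ)) * (Uᴴ * U) by
          simp only [Matrix.mul_assoc], hU']
      simp
    have hNk : Uᴴ * N * U = Wᴴ * Matrix.diagonal (fun i => (hN.eigenvalues i : ℂ)) * W := by
      conv_lhs => rw [hVe]
      simp [hW, Matrix.mul_assoc, Matrix.conjTranspose_mul]
    rw [Matrix.mul_sub, Matrix.sub_mul, Matrix.sub_apply, hMk, hNk, Matrix.mul_apply,
      Complex.sub_re, Complex.re_sum, Matrix.diagonal_apply_eq, Complex.ofReal_re] at h0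
    refine (sub_nonneg.mp h0).trans_eq (Finset.sum_congr rfl fun j _ => ?_)
    simp [Matrix.mul_diagonal, Complex.normSq_apply]
    ring
  have key : ∀ k, max (hM.eigenvalues k - L) 0
      ≤ ∑ j, Complex.normSq (W j k) * max (hN.eigenvalues j - L) 0 := by
    intro k
    refine max_le ?_ (Finset.sum_nonneg fun j _ =>
      mul_nonneg (Complex.normSq_nonneg _) (le_max_right _ _))
    calc hM.eigenvalues k - L
        ≤ (∑ j, Complex.normSq (W j k) * hN.eigenvalues j) - (∑ j, Complex.normSq (W j k)) * L := by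
          rw [hcol, one_mul]; exact sub_le_sub_right (hk k) L
      _ = ∑ j, Complex.normSq (W j k) * (hN.eigenvalues j - L) := by
          rw [Finset.sum_mul, ← Finset.sum_sub_distrib]; simp [mul_sub]
      _ ≤ _ := Finset.sum_le_sum fun j _ =>
          mul_le_mul_of_nonneg_left (le_max_left _ _) (Complex.normSq_nonneg _)
  refine (Finset.sum_le_sum fun k _ => key k).trans_eq ?_
  rw [Finset.sum_comm]
  simp [← Finset.sum_mul, hrow]

end VAgent.P358
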