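import Vale.Agent.P358.Scalar
import Vale.Agent.P358.Spectral
import Vale.Agent.P358.CoreEig

/-!
# P358: layers of the separable bound
-/

namespace VAgent.P358

open MeasureTheory Matrix
open scoped ENNReal ComplexOrder

variable {ι : Type*} [Fintype ι] [DecidableEq ι]

theorem phi_layer {P : Par} (h : P.Ok) {w : ℝ} (hw : 0 < w) :
    ∫⁻ τ in Set.Ioi (0:ℝ), ENNReal.ofReal (P.dens τ) * (if w < τ then 1 else 0)
      = ENNReal.ofReal (P.phi w) := by
  have h1 : ENNReal.ofReal (P.phi w) = ∫⁻ τ in Set.Ioi w, ENNReal.ofReal (P.dens τ) := by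
    rw [Par.phi, ofReal_integral_eq_lintegral_ofReal ((Par.dens_integrableOn h) hw)]
    exact (ae_restrict_mem measurableSet_Ioi).mono fun t ht => (Par.dens_nonneg h) (hw.trans ht)
  rw [h1]
  have h2 : ∀ τ, ENNReal.ofReal (P.dens τ) * (if w < τ then 1 else 0)
      = (Set.Ioi w).indicator (fun t => ENNReal.ofReal (P.dens t)) τ := by
    intro τ
    by_cases hτ : w < τ <;> simp [hτ]
  simp_rw [h2]
  rw [lintegral_indicator measurableSet_Ioi, Measure.restrict_restrict measurableSet_Ioi,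
    Set.inter_eq_left.mpr (Set.Ioi_subset_Ioi hw.le)]

theorem dens_aemeasurable {P : Par} (h : P.Ok) :
    AEMeasurable (fun τ => ENNReal.ofReal (P.dens τ)) (volume.restrict (Set.Ioi (0:ℝ))) :=
  ((Par.dens_continuousOn h).aemeasurable measurableSet_Ioi).ennreal_ofReal

theorem sum_layer {P : Par} (h : P.Ok) {y : ι → ℝ} (hy : ∀ i, 0 < y i) :
    ∫⁻ τ in Set.Ioi (0:ℝ), ENNReal.ofReal (P.dens τ)
        * ((Finset.univ.filter fun i => y i < τ).card : ℝ≥0∞)
      = ENNReal.ofReal (∑ i, P.phi (y i)) := by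
  have h2 : ∀ τ, ((Finset.univ.filter fun i => y i < τ).card : ℝ≥0∞)
      = ∑ i, (if y i < τ then (1:ℝ≥0∞) else 0) := by
    intro τ
    rw [Finset.sum_boole]
  simp_rw [h2, Finset.mul_sum]
  rw [lintegral_finsetSum']
  · rw [ENNReal.ofReal_sum_of_nonneg fun i _ => (Par.phi_nonneg h) (hy i)]
    exact Finset.sum_congr rfl fun i _ => phi_layer h (hy i)
  · intro i _
    refine (dens_aemeasurable h).mul (Measurable.aemeasurable ?_)
    exact Measurable.ite measurableSet_Ioi measurable_const measurable_const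

theorem affine_comp_integrable {P : Par} (h : P.Ok) {x w : ℝ} (hx : 0 < x) (hw : 0 ≤ w) {L : ℝ}
    (hL : 0 ≤ L) : IntegrableOn (fun s => P.phi ((s + w) / x)) (Set.Ioc 0 L) := by
  rw [← intervalIntegrable_iff_integrableOn_Ioc_of_le hL]
  rcases eq_or_lt_of_le hw with hw0 | hwp
  · subst hw0
    have hLx : 0 ≤ L / x := by positivity
    have h1 : IntervalIntegrable P.phi volume 0 (L / x) :=
      (intervalIntegrable_iff_integrableOn_Ioc_of_le hLx).mpr ((Par.phi_intervalIntegrable h) hLx)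
    have h2 := h1.comp_mul_left (c := 1 / x)
    simp only [zero_div] at h2
    have h3 : L / x / (1 / x) = L := by field_simp
    rw [h3] at h2
    refine h2.congr ?_
    intro s _
    simp [div_eq_mul_inv, mul_comm]
  · refine ContinuousOn.intervalIntegrable ?_
    rw [Set.uIcc_of_le hL]
    refine (Par.phi_continuousOn h).comp (by fun_prop) ?_
    intro s hs
    show 0 < (s + w) / x
    exact div_pos (by linarith [hs.1]) hx

theorem vol_Ioc_lt {L v : ℝ} (hL : 0 ≤ L) :
    ∫⁻ s in Set.Ioc (0:ℝ) L, (if s < v then (1:ℝ≥0∞) else 0)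
      = ENNReal.ofReal (min (max v 0) L) := by
  have h1 : ∀ s : ℝ, (if s < v then (1:ℝ≥0∞) else 0) = (Set.Iio v).indicator (fun _ => 1) s := by
    intro s
    by_cases hs : s < v <;> simp [hs]
  simp_rw [h1]
  rw [lintegral_indicator measurableSet_Iio, setLIntegral_one,
    Measure.restrict_apply measurableSet_Iio]
  rcases le_or_gt v 0 with hv | hv
  · have : Set.Iio v ∩ Set.Ioc 0 L = ∅ :=
      Set.eq_empty_of_forall_notMem fun s hs =>
        absurd (lt_trans hs.2.1 hs.1) (not_lt.mpr hv)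
    rw [this]
    simp [max_eq_right hv, hL]
  · rw [max_eq_left hv.le]
    rcases le_or_gt v L with hvL | hvL
    · rw [min_eq_left hvL]
      have : Set.Iio v ∩ Set.Ioc 0 L = Set.Ioo 0 v := by
        ext s
        constructor
        · rintro ⟨a, b, _⟩
          exact ⟨b, a⟩
        · rintro ⟨a, b⟩
          exact ⟨b, a, b.le.trans hvL⟩
      rw [this, Real.volume_Ioo, sub_zero]
    · rw [min_eq_right hvL.le]
      have : Set.Iio v ∩ Set.Ioc 0 L = Set.Ioc 0 L := by
        apply Set.inter_eq_right.mpr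
        intro s hs
        exact lt_of_le_of_lt hs.2 hvL
      rw [this, Real.volume_Ioc, sub_zero]

theorem scalar_swap {P : Par} (h : P.Ok) {x w : ℝ} (hx : 0 < x) (hw : 0 ≤ w) {L : ℝ} (hL : 0 ≤ L) :
    ENNReal.ofReal (∫ s in Set.Ioc 0 L, P.phi ((s + w) / x))
      = ∫⁻ τ in Set.Ioi (0:ℝ), ENNReal.ofReal (P.dens τ)
          * ENNReal.ofReal (min (max (τ * x - w) 0) L) := by
  rw [ofReal_integral_eq_lintegral_ofReal (affine_comp_integrable h hx hw hL)
    ((ae_restrict_mem measurableSet_Ioc).mono fun s hs =>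
      (Par.phi_nonneg h) (div_pos (by linarith [hs.1]) hx))]
  have h1 : ∀ s ∈ Set.Ioc (0:ℝ) L, ENNReal.ofReal (P.phi ((s + w) / x))
      = ∫⁻ τ in Set.Ioi (0:ℝ), ENNReal.ofReal (P.dens τ) * (if s < τ * x - w then 1 else 0) := by
    intro s hs
    rw [← phi_layer h (div_pos (by linarith [hs.1]) hx : 0 < (s + w) / x)]
    refine lintegral_congr fun τ => ?_
    congr 1
    refine if_congr ?_ rfl rfl
    rw [div_lt_iff₀ hx]
    constructor <;> intro <;> linarith
  rw [setLIntegral_congr_fun measurableSet_Ioc h1, lintegral_lintegral_swap]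
  · refine lintegral_congr fun τ => ?_
    rw [lintegral_const_mul', vol_Ioc_lt hL]
    exact ENNReal.ofReal_ne_top
  · refine AEMeasurable.mul ?_ (Measurable.aemeasurable ?_)
    · exact (dens_aemeasurable h).comp_snd
    · exact Measurable.ite (measurableSet_lt measurable_fst
        ((measurable_snd.mul_const x).sub_const w)) measurable_const measurable_const

omit [Fintype ι] [DecidableEq ι] in
theorem lay_herm {A B : Matrix ι ι ℂ} (hA : A.IsHermitian) (hB : B.IsHermitian) (τ : ℝ) :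
    ((τ : ℂ) • A - B).IsHermitian := by
  refine IsHermitian.sub ?_ hB
  show _ = _
  rw [Matrix.conjTranspose_smul, hA.eq]
  simp

/-- The number of eigenvalues of `τ A - B` above `s`, for positive `s`. -/
noncomputable def cnt {A B : Matrix ι ι ℂ} (hA : A.IsHermitian) (hB : B.IsHermitian) (z : ℝ × ℝ) :
    ℕ :=
  if 0 < z.1 then (Finset.univ.filter fun k => z.1 < (lay_herm hA hB z.2).eigenvalues k).card else 0

theorem cnt_measurable {A B : Matrix ι ι ℂ} (hA : A.IsHermitian) (hB : B.IsHermitian)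
    (y : ℝ → ι → ℝ)
    (hy : ∀ s, 0 < s → ∀ τ, cnt hA hB (s, τ) = (Finset.univ.filter fun i => y s i < τ).card) :
    Measurable (cnt hA hB) := by
  apply measurable_of_Ici
  intro k
  rcases Nat.eq_zero_or_pos k with hk | hk
  · simp [hk]
  have hset : cnt hA hB ⁻¹' Set.Ici k
      = ⋃ r : ℚ, {s : ℝ | 0 < s ∧ k ≤ cnt hA hB (s, (r : ℝ))} ×ˢ Set.Ioi (r : ℝ) := by
    ext ⟨s, τ⟩
    simp only [Set.mem_preimage, Set.mem_Ici, Set.mem_iUnion, Set.mem_prod, Set.mem_ofPred_eq,
      Set.mem_Ioi]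
    constructor
    · intro hc
      have hs : 0 < s := by
        by_contra hn
        rw [cnt, if_neg hn] at hc
        omega
      rw [hy s hs] at hc
      set S := Finset.univ.filter fun i => y s i < τ with hS
      have hne : S.Nonempty := Finset.card_pos.mp (by omega)
      have hmax : S.sup' hne (y s) < τ := by
        rw [Finset.sup'_lt_iff]
        intro i hi
        exact (Finset.mem_filter.mp hi).2
      obtain ⟨r, hr1, hr2⟩ := exists_rat_btwn hmax
      refine ⟨r, ⟨hs, ?_⟩, hr2⟩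
      rw [hy s hs]
      refine hc.trans (Finset.card_le_card fun i hi => ?_)
      simp only [Finset.mem_filter, Finset.mem_univ, true_and]
      exact lt_of_le_of_lt (Finset.le_sup' (y s) hi) hr1
    · rintro ⟨r, ⟨hs, hc⟩, hr⟩
      rw [hy s hs] at hc ⊢
      refine hc.trans (Finset.card_le_card fun i hi => ?_)
      simp only [Finset.mem_filter, Finset.mem_univ, true_and] at hi ⊢
      exact hi.trans hr
  rw [hset]
  refine MeasurableSet.iUnion fun r => MeasurableSet.prod ?_ measurableSet_Ioi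
  refine Set.OrdConnected.measurableSet ⟨?_⟩
  rintro s ⟨hs, _⟩ s' ⟨hs', hc'⟩ t ⟨ht, ht'⟩
  have ht0 : 0 < t := lt_of_lt_of_le hs ht
  refine ⟨ht0, hc'.trans ?_⟩
  rw [cnt, cnt, if_pos hs', if_pos ht0]
  refine Finset.card_le_card fun i hi => ?_
  simp only [Finset.mem_filter, Finset.mem_univ, true_and] at hi ⊢
  exact lt_of_le_of_lt ht' hi

/-- The pointwise comparison of layers. -/
theorem layer_pointwise {A Q : Matrix ι ι ℂ} (hA : A.PosSemidef) (hQ : Q.PosSemidef) {b : ℝ}
    (hb : 0 ≤ b) {τ L : ℝ} (hτ : 0 ≤ τ) (hL : 0 ≤ L) (hH : ((τ : ℂ) • A - (b : ℂ) • Q).IsHermitian) :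
    (∑ i, min (τ * hA.1.eigenvalues i) L)
        + min (max (τ * A.trace.re - b * Q.trace.re) 0) L
      ≤ (∑ k, min (max (hH.eigenvalues k) 0) L) + min (τ * A.trace.re) L
        + b * Q.trace.re * (if L < τ * A.trace.re then 1 else 0) := by
  have hT : ((τ : ℂ) • A).IsHermitian := (hA.smul (Complex.zero_le_real.mpr hτ)).1
  have h1 := sum_posPart_mono hH hT (by
    rw [sub_sub_cancel]
    exact hQ.smul (Complex.zero_le_real.mpr hb)) L
  rw [sumEig_smul hA.1 τ hT (fun x => max (x - L) 0)] at h1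
  have h2 : ∀ x : ℝ, min (max x 0) L = max x 0 - max (x - L) 0 := by
    intro x
    rcases le_total x 0 with h | h
    · rw [max_eq_right h, min_eq_left hL, max_eq_right (by linarith)]
      ring
    · rw [max_eq_left h]
      rcases le_total x L with h' | h'
      · rw [min_eq_left h', max_eq_right (by linarith)]
        ring
      · rw [min_eq_right h', max_eq_left (by linarith)]
        ring
  have h3 : ∀ i, min (τ * hA.1.eigenvalues i) L
      = τ * hA.1.eigenvalues i - max (τ * hA.1.eigenvalues i - L) 0 := by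
    intro i
    have h0 : 0 ≤ τ * hA.1.eigenvalues i := mul_nonneg hτ (hA.eigenvalues_nonneg i)
    simpa [max_eq_left h0] using h2 (τ * hA.1.eigenvalues i)
  simp only [h2 (hH.eigenvalues _), h3, Finset.sum_sub_distrib, ← Finset.mul_sum,
    sumEig_real hA.1]
  have htr : ∑ k, hH.eigenvalues k = τ * A.trace.re - b * Q.trace.re := by
    rw [sumEig_real hH]
    simp [Matrix.trace_sub, Matrix.trace_smul]
  have h4 : max (τ * A.trace.re - b * Q.trace.re) 0 ≤ ∑ k, max (hH.eigenvalues k) 0 := by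
    refine max_le ?_ (Finset.sum_nonneg fun k _ => le_max_right _ _)
    rw [← htr]
    exact Finset.sum_le_sum fun k _ => le_max_left _ _
  have hq : 0 ≤ b * Q.trace.re := by
    rw [← sumEig_real hQ.1]
    exact mul_nonneg hb (Finset.sum_nonneg fun k _ => hQ.eigenvalues_nonneg k)
  set Z := max (τ * A.trace.re - b * Q.trace.re) 0 with hZ
  by_cases hc : L < τ * A.trace.re
  · rw [if_pos hc, min_eq_right hc.le]
    have := le_max_left (τ * A.trace.re - b * Q.trace.re) (0:ℝ)
    rw [← hZ] at this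
    have := min_le_right Z L
    linarith
  · push Not at hc
    rw [if_neg (not_lt.mpr hc), min_eq_left hc]
    have : Z ≤ L := max_le (by linarith) hL
    rw [min_eq_left this]
    linarith

theorem layer_bound {P : Par} (h : P.Ok) {A Q : Matrix ι ι ℂ} (hA : A.PosDef) (hQ : Q.PosDef)
    (hp : A.trace.re = P.p) (hq : Q.trace.re = P.q) (y : ℝ → ι → ℝ)
    (hy0 : ∀ s, 0 < s → ∀ i, 0 < y s i)
    (hy : ∀ s, 0 < s → ∃ T : Matrix ι ι ℂ, IsUnit T.det ∧ T * Tᴴ = A ∧
      T * Matrix.diagonal (fun i => (y s i : ℂ)) * Tᴴ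
        = (s : ℂ) • (1 : Matrix ι ι ℂ) + (P.b : ℂ) • Q)
    {L : ℝ} (hL : 0 < L) :
    AEMeasurable (fun s => ENNReal.ofReal (∑ i, P.phi (y s i))) (volume.restrict (Set.Ioc 0 L)) ∧
    ENNReal.ofReal ((∑ i, ∫ s in Set.Ioc 0 L, P.phi (s / hA.1.eigenvalues i))
          + ∫ s in Set.Ioc 0 L, P.phi ((s + P.b * P.q) / P.p))
      ≤ (∫⁻ s in Set.Ioc 0 L, ENNReal.ofReal (∑ i, P.phi (y s i)))
        + ENNReal.ofReal ((∫ s in Set.Ioc 0 L, P.phi (s / P.p)) + P.b * P.q * P.phi (L / P.p)) := by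
  have hB : ((P.b : ℂ) • Q).IsHermitian :=
    (hQ.posSemidef.smul (Complex.zero_le_real.mpr h.b0)).1
  have hcnt : ∀ s, 0 < s → ∀ τ,
      cnt hA.1 hB (s, τ) = (Finset.univ.filter fun i => y s i < τ).card := by
    intro s hs τ
    obtain ⟨T, hT, hTA, hTM⟩ := hy s hs
    simp only [cnt, if_pos hs]
    exact (count_layer hT hTA hTM (lay_herm hA.1 hB τ)).symm
  have hm := cnt_measurable hA.1 hB y hcnt
  set f : ℝ → ℝ → ℝ≥0∞ := fun s τ => ENNReal.ofReal (P.dens τ) * (cnt hA.1 hB (s, τ) : ℝ≥0∞)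
    with hf
  have hfm : AEMeasurable (Function.uncurry f)
      ((volume.restrict (Set.Ioc 0 L)).prod (volume.restrict (Set.Ioi (0:ℝ)))) := by
    refine AEMeasurable.mul (dens_aemeasurable h).comp_snd (Measurable.aemeasurable ?_)
    exact (measurable_from_top (f := fun n : ℕ => (n : ℝ≥0∞))).comp hm
  have hsum : ∀ s ∈ Set.Ioc (0:ℝ) L, ∫⁻ τ in Set.Ioi (0:ℝ), f s τ
      = ENNReal.ofReal (∑ i, P.phi (y s i)) := by
    intro s hs
    rw [← sum_layer h (hy0 s hs.1)]
    simp only [hf, hcnt s hs.1]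
  refine ⟨(hfm.lintegral_prod_right').congr
    ((ae_restrict_mem measurableSet_Ioc).mono hsum), ?_⟩
  rw [← setLIntegral_congr_fun measurableSet_Ioc hsum, lintegral_lintegral_swap hfm]
  have hin : ∀ τ, ∫⁻ s in Set.Ioc (0:ℝ) L, f s τ = ENNReal.ofReal (P.dens τ)
      * ENNReal.ofReal (∑ k, min (max ((lay_herm hA.1 hB τ).eigenvalues k) 0) L) := by
    intro τ
    simp only [hf]
    rw [lintegral_const_mul' _ _ ENNReal.ofReal_ne_top]
    congr 1
    rw [ENNReal.ofReal_sum_of_nonneg fun k _ => le_min (le_max_right _ _) hL.le]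
    have : ∀ s ∈ Set.Ioc (0:ℝ) L, (cnt hA.1 hB (s, τ) : ℝ≥0∞)
        = ∑ k, (if s < (lay_herm hA.1 hB τ).eigenvalues k then (1:ℝ≥0∞) else 0) := by
      intro s hs
      rw [cnt, if_pos hs.1, Finset.sum_boole]
    rw [setLIntegral_congr_fun measurableSet_Ioc this, lintegral_finsetSum]
    · exact Finset.sum_congr rfl fun k _ => vol_Ioc_lt hL.le
    · exact fun k _ => Measurable.ite measurableSet_Iio measurable_const measurable_const
  simp_rw [hin]
  have hq0 : 0 ≤ P.b * P.q := mul_nonneg h.b0 h.q0.le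
  have e1 : ∀ i, ENNReal.ofReal (∫ s in Set.Ioc 0 L, P.phi (s / hA.1.eigenvalues i))
      = ∫⁻ τ in Set.Ioi (0:ℝ), ENNReal.ofReal (P.dens τ)
          * ENNReal.ofReal (min (max (τ * hA.1.eigenvalues i) 0) L) := by
    intro i
    simpa using scalar_swap h (hA.eigenvalues_pos i) le_rfl hL.le
  have e2 : ENNReal.ofReal (∫ s in Set.Ioc 0 L, P.phi (s / P.p))
      = ∫⁻ τ in Set.Ioi (0:ℝ), ENNReal.ofReal (P.dens τ)
          * ENNReal.ofReal (min (max (τ * P.p) 0) L) := by
    simpa using scalar_swap h h.p0 le_rfl hL.le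
  have e3 : ENNReal.ofReal (P.b * P.q * P.phi (L / P.p))
      = ∫⁻ τ in Set.Ioi (0:ℝ), ENNReal.ofReal (P.dens τ)
          * (ENNReal.ofReal (P.b * P.q) * (if L / P.p < τ then 1 else 0)) := by
    rw [ENNReal.ofReal_mul hq0, ← phi_layer h (div_pos hL h.p0),
      ← lintegral_const_mul' _ _ ENNReal.ofReal_ne_top]
    exact lintegral_congr fun τ => by ring
  have hi0 : ∀ i, 0 ≤ ∫ s in Set.Ioc 0 L, P.phi (s / hA.1.eigenvalues i) := fun i =>
    setIntegral_nonneg measurableSet_Ioc fun s hs =>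
      (Par.phi_nonneg h) (div_pos hs.1 (hA.eigenvalues_pos i))
  have hi1 : 0 ≤ ∫ s in Set.Ioc 0 L, P.phi ((s + P.b * P.q) / P.p) :=
    setIntegral_nonneg measurableSet_Ioc fun s hs =>
      (Par.phi_nonneg h) (div_pos (by linarith [hs.1]) h.p0)
  have hi2 : 0 ≤ ∫ s in Set.Ioc 0 L, P.phi (s / P.p) :=
    setIntegral_nonneg measurableSet_Ioc fun s hs => (Par.phi_nonneg h) (div_pos hs.1 h.p0)
  rw [ENNReal.ofReal_add (Finset.sum_nonneg fun i _ => hi0 i) hi1,
    ENNReal.ofReal_sum_of_nonneg (fun i _ => hi0 i),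
    ENNReal.ofReal_add hi2 (mul_nonneg hq0 ((Par.phi_nonneg h) (div_pos hL h.p0))),
    scalar_swap h h.p0 hq0 hL.le, e2, e3]
  simp_rw [e1]
  have hmeas : ∀ x : ℝ, AEMeasurable (fun τ => ENNReal.ofReal (P.dens τ)
      * ENNReal.ofReal (min (max (τ * x) 0) L)) (volume.restrict (Set.Ioi (0:ℝ))) := fun x =>
    (dens_aemeasurable h).mul (Measurable.aemeasurable (by fun_prop))
  have hmeas2 : AEMeasurable (fun τ => ENNReal.ofReal (P.dens τ)
      * (ENNReal.ofReal (P.b * P.q) * (if L / P.p < τ then 1 else 0)))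
      (volume.restrict (Set.Ioi (0:ℝ))) :=
    (dens_aemeasurable h).mul (Measurable.aemeasurable (measurable_const.mul
      (Measurable.ite measurableSet_Ioi measurable_const measurable_const)))
  have hm3 : AEMeasurable (fun τ => ENNReal.ofReal (P.dens τ)
        * ENNReal.ofReal (min (max (τ * P.p) 0) L)
      + ENNReal.ofReal (P.dens τ)
        * (ENNReal.ofReal (P.b * P.q) * (if L / P.p < τ then 1 else 0)))
      (volume.restrict (Set.Ioi (0:ℝ))) := (hmeas P.p).add hmeas2
  rw [← lintegral_finsetSum' _ (fun i _ => hmeas _),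
    ← lintegral_add_left' (Finset.aemeasurable_fun_sum _ fun i _ => hmeas _),
    ← lintegral_add_left' (hmeas _), ← lintegral_add_right' _ hm3]
  refine lintegral_mono_ae ?_
  filter_upwards [ae_restrict_mem measurableSet_Ioi] with τ hτ
  simp only [Pi.add_apply, ← Finset.mul_sum, ← mul_add]
  refine mul_le_mul_right ?_ _
  have hτ0 : (0:ℝ) ≤ τ := le_of_lt hτ
  have key := layer_pointwise hA.posSemidef hQ.posSemidef h.b0 hτ0 hL.le (lay_herm hA.1 hB τ)
  rw [hp, hq] at key
  have i1 : (if L / P.p < τ then (1:ℝ≥0∞) else 0) = ENNReal.ofReal (if L < τ * P.p then 1 else 0) := by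
    rw [apply_ite ENNReal.ofReal, ENNReal.ofReal_one, ENNReal.ofReal_zero]
    exact if_congr (div_lt_iff₀ h.p0) rfl rfl
  rw [i1, ← ENNReal.ofReal_sum_of_nonneg fun i _ => le_min (le_max_right _ _) hL.le,
    ← ENNReal.ofReal_mul hq0,
    ← ENNReal.ofReal_add (Finset.sum_nonneg fun i _ => le_min (le_max_right _ _) hL.le)
      (le_min (le_max_right _ _) hL.le),
    ← ENNReal.ofReal_add (le_min (le_max_right _ _) hL.le) (by positivity),
    ← ENNReal.ofReal_add (Finset.sum_nonneg fun i _ => le_min (le_max_right _ _) hL.le)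
      (by positivity)]
  refine ENNReal.ofReal_le_ofReal ?_
  have e4 : ∀ i, max (τ * hA.1.eigenvalues i) 0 = τ * hA.1.eigenvalues i := fun i =>
    max_eq_left (mul_nonneg hτ0 (hA.posSemidef.eigenvalues_nonneg i))
  simp only [e4, max_eq_left (mul_nonneg hτ0 h.p0.le)]
  linarith [key]

end VAgent.P358
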