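import Vale.Agent.P358.Scalar
import Vale.Agent.P358.CoreLayer

/-!
# P358: limits as the cutoff tends to infinity
-/

namespace VAgent.P358

open MeasureTheory Filter Topology

/-- Integral of `log (s + x)` over `(0, L]`. -/
theorem logInt_eq {L x : ℝ} (hL : 0 ≤ L) (hx : 0 ≤ x) :
    ∫ s in Set.Ioc 0 L, Real.log (s + x) = (L + x) * Real.log (L + x) - L + Real.negMulLog x := by
  rw [← intervalIntegral.integral_of_le hL, intervalIntegral.integral_comp_add_right
    (fun t => Real.log t), integral_log, Real.negMulLog]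
  ring

theorem logInt_integrable {L x : ℝ} (hL : 0 ≤ L) :
    IntegrableOn (fun s => Real.log (s + x)) (Set.Ioc 0 L) := by
  rw [← intervalIntegrable_iff_integrableOn_Ioc_of_le hL]
  have h := (intervalIntegral.intervalIntegrable_log' (a := 0 + x) (b := L + x)).comp_add_right x
  simpa using h

/-- The remainder in the expansion of the integral. -/
noncomputable def logRem (L x : ℝ) : ℝ :=
  (L + x) * Real.log (L + x) - L * Real.log L - x * (Real.log L + 1)

theorem logRem_tendsto {x : ℝ} (hx : 0 ≤ x) : Tendsto (fun L => logRem L x) atTop (𝓝 0) := by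
  have hb : ∀ L : ℝ, 0 < L → 0 ≤ logRem L x ∧ logRem L x ≤ x ^ 2 / L := by
    intro L hL
    have hlog : Real.log (L + x) = Real.log L + Real.log (1 + x / L) := by
      rw [← Real.log_mul hL.ne' (by positivity)]
      congr 1
      field_simp
    have e : logRem L x = (L + x) * Real.log (1 + x / L) - x := by
      rw [logRem, hlog]
      ring
    have hpos : 0 < 1 + x / L := by positivity
    have u := Real.log_le_sub_one_of_pos hpos
    have l := Real.one_sub_inv_le_log_of_pos hpos
    rw [e]
    constructor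
    · have : (L + x) * (1 - (1 + x / L)⁻¹) = x := by field_simp; ring
      nlinarith [mul_le_mul_of_nonneg_left l (by linarith : 0 ≤ L + x)]
    · have : (L + x) * (1 + x / L - 1) = x + x ^ 2 / L := by field_simp; ring
      nlinarith [mul_le_mul_of_nonneg_left u (by linarith : 0 ≤ L + x)]
  refine tendsto_of_tendsto_of_tendsto_of_le_of_le' (g := fun _ => (0:ℝ)) tendsto_const_nhds
    (Filter.Tendsto.const_div_atTop tendsto_id (x ^ 2)) ?_ ?_
  · filter_upwards [eventually_gt_atTop (0:ℝ)] with L hL using (hb L hL).1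
  · filter_upwards [eventually_gt_atTop (0:ℝ)] with L hL using (hb L hL).2

theorem phi_interval {P : Par} (h : P.Ok) {u v : ℝ} (hu : 0 ≤ u) (hv : 0 ≤ v) :
    IntervalIntegrable P.phi volume u v := by
  have hi : ∀ {w : ℝ}, 0 ≤ w → IntervalIntegrable P.phi volume 0 w := fun hw =>
    (intervalIntegrable_iff_integrableOn_Ioc_of_le hw).mpr (Par.phi_intervalIntegrable h hw)
  exact (hi hu).symm.trans (hi hv)

theorem phi_ratio_tendsto {P : Par} (h : P.Ok) {u v : ℝ} (hu : 0 < u) (hv : 0 < v) :
    Tendsto (fun L => ∫ t in L / u..L / v, P.phi t) atTop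
      (𝓝 ((1 - P.a) * Real.log (u / v))) := by
  rw [Metric.tendsto_nhds]
  intro ε hε
  set m := min (1 / u) (1 / v) with hm
  have hm0 : 0 < m := lt_min (by positivity) (by positivity)
  set K := |1 / v - 1 / u| / m + 1 with hK
  have hK0 : 0 < K := by positivity
  have hT := (Metric.tendsto_nhds.mp (Par.tendsto_mul_phi h)) (ε / K) (by positivity)
  obtain ⟨T, hT⟩ := eventually_atTop.mp hT
  filter_upwards [eventually_gt_atTop (max (T / m) 0)] with L hL
  have hL0 : 0 < L := lt_of_le_of_lt (le_max_right _ _) hL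
  have hLm : T < L * m := by
    have := lt_of_le_of_lt (le_max_left _ _) hL
    rwa [div_lt_iff₀ hm0] at this
  have hi1 := phi_interval h (u := L / u) (v := L / v) (by positivity) (by positivity)
  have h0 : (0:ℝ) ∉ Set.uIcc (L / u) (L / v) := by
    intro hmem
    rw [Set.mem_uIcc] at hmem
    have : 0 < L / u := by positivity
    have : 0 < L / v := by positivity
    rcases hmem with hmem | hmem <;> linarith [hmem.1]
  have hi2 : IntervalIntegrable (fun t => (1 - P.a) / t) volume (L / u) (L / v) := by
    refine ContinuousOn.intervalIntegrable (continuousOn_const.div continuousOn_id ?_)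
    intro t ht hz
    exact h0 (hz ▸ ht)
  have hlog : ∫ t in L / u..L / v, (1 - P.a) / t = (1 - P.a) * Real.log (u / v) := by
    simp only [div_eq_mul_inv (1 - P.a)]
    rw [intervalIntegral.integral_const_mul, integral_inv h0]
    congr 2
    field_simp
  rw [Real.dist_eq, ← hlog, ← intervalIntegral.integral_sub hi1 hi2]
  have hbound : ∀ t ∈ Set.uIoc (L / u) (L / v),
      ‖P.phi t - (1 - P.a) / t‖ ≤ ε / K / (L * m) := by
    intro t ht
    have htm : L * m ≤ t := by
      refine le_trans ?_ (le_of_lt ht.1)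
      rw [hm, mul_min_of_nonneg _ _ hL0.le]
      simp [div_eq_mul_inv]
    have ht0 : 0 < t := lt_of_lt_of_le (by positivity) htm
    have := hT t (by linarith)
    rw [Real.dist_eq] at this
    have e : P.phi t - (1 - P.a) / t = (t * P.phi t - (1 - P.a)) / t := by field_simp
    rw [e, Real.norm_eq_abs, abs_div, abs_of_pos ht0]
    exact div_le_div₀ (by positivity) this.le (by positivity) htm
  have := intervalIntegral.norm_integral_le_of_norm_le_const hbound
  rw [Real.norm_eq_abs] at this
  refine lt_of_le_of_lt this ?_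
  have e : |L / v - L / u| = L * |1 / v - 1 / u| := by
    rw [← abs_of_pos hL0, ← abs_mul, abs_of_pos hL0]
    congr 1
    ring
  rw [e]
  have : ε / K / (L * m) * (L * |1 / v - 1 / u|) = ε * ((|1 / v - 1 / u| / m) / K) := by
    field_simp
  rw [this]
  have : (|1 / v - 1 / u| / m) / K < 1 := by
    rw [div_lt_one hK0, hK]
    linarith
  nlinarith

theorem phi_scaled {P : Par} {L x : ℝ} (hL : 0 ≤ L) (hx : 0 < x) :
    ∫ s in Set.Ioc 0 L, P.phi (s / x) = x * ∫ t in (0:ℝ)..L / x, P.phi t := by
  rw [← intervalIntegral.integral_of_le hL, intervalIntegral.integral_comp_div P.phi hx.ne']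
  simp

/-- The reference layers reproduce the entropy of the population block. -/
theorem ref_tendsto {ι : Type*} [Fintype ι] {P : Par} (h : P.Ok) (a : ι → ℝ) (ha : ∀ i, 0 < a i)
    (hsum : ∑ i, a i = P.p) :
    Tendsto (fun L => (∑ i, ∫ s in Set.Ioc 0 L, P.phi (s / a i))
        - ((∫ s in Set.Ioc 0 L, P.phi (s / P.p)) + P.b * P.q * P.phi (L / P.p))) atTop
      (𝓝 ((1 - P.a) * ((∑ i, Real.negMulLog (a i)) - Real.negMulLog P.p))) := by
  have hlim : Tendsto (fun L => (∑ i, a i * ∫ t in L / P.p..L / a i, P.phi t)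
      - P.b * P.q * P.phi (L / P.p)) atTop
      (𝓝 ((∑ i, a i * ((1 - P.a) * Real.log (P.p / a i))) - P.b * P.q * 0)) := by
    refine Tendsto.sub (tendsto_finsetSum _ fun i _ =>
      (phi_ratio_tendsto h h.p0 (ha i)).const_mul (a i)) (Tendsto.const_mul _ ?_)
    have h1 : Tendsto (fun L : ℝ => L / P.p) atTop atTop := tendsto_id.atTop_div_const h.p0
    have h2 := ((Par.tendsto_mul_phi h).comp h1).div_atTop h1
    refine h2.congr' ?_
    filter_upwards [eventually_gt_atTop (0:ℝ)] with L hL
    have : 0 < L / P.p := div_pos hL h.p0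
    have := h.p0.ne'
    have := hL.ne'
    simp only [Function.comp_apply]
    field_simp
  have hval : (∑ i, a i * ((1 - P.a) * Real.log (P.p / a i))) - P.b * P.q * 0
      = (1 - P.a) * ((∑ i, Real.negMulLog (a i)) - Real.negMulLog P.p) := by
    rw [mul_zero, sub_zero, mul_sub, Finset.mul_sum]
    have e1 : ∀ i, a i * ((1 - P.a) * Real.log (P.p / a i))
        = (1 - P.a) * Real.negMulLog (a i) + (1 - P.a) * Real.log P.p * a i := by
      intro i
      rw [Real.log_div h.p0.ne' (ha i).ne', Real.negMulLog]
      ring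
    rw [Finset.sum_congr rfl fun i _ => e1 i, Finset.sum_add_distrib, ← Finset.mul_sum,
      ← Finset.mul_sum, hsum]
    simp only [Real.negMulLog]
    rw [Finset.mul_sum]
    ring
  rw [← hval]
  refine hlim.congr' ?_
  filter_upwards [eventually_gt_atTop (0:ℝ)] with L hL
  have e2 : ∀ i, a i * ∫ t in L / P.p..L / a i, P.phi t
      = (∫ s in Set.Ioc 0 L, P.phi (s / a i)) - a i * ∫ t in (0:ℝ)..L / P.p, P.phi t := by
    intro i
    rw [phi_scaled hL.le (ha i), ← mul_sub,
      intervalIntegral.integral_interval_sub_left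
        (phi_interval h le_rfl (le_of_lt (div_pos hL (ha i))))
        (phi_interval h le_rfl (le_of_lt (div_pos hL h.p0)))]
  rw [Finset.sum_congr rfl fun i _ => e2 i, Finset.sum_sub_distrib, ← Finset.sum_mul, hsum,
    ← phi_scaled hL.le h.p0]
  ring

end VAgent.P358
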