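import Vale.Agent.P358.CorePerS
import Vale.Agent.P358.CoreLayer
import Vale.Agent.P358.CoreLimit

/-!
# P358: the key entropy inequality
-/

namespace VAgent.P358

open MeasureTheory Matrix Filter Topology
open scoped ComplexOrder ENNReal

variable {ι : Type*} [Fintype ι] [DecidableEq ι]

theorem roots_scalar (P : Par) (hP : P.Ok) {s : ℝ} (hs : 0 < s) :
    let X := (1 - P.a) * P.p + P.b * P.q
    let Y := P.a * P.p + (1 - P.b) * P.q
    let d := Real.sqrt ((X - Y) ^ 2 + 4 * P.c2 * (P.p * P.q))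
    0 ≤ X + Y - d ∧
    Real.log (s + (X + Y + d) / 2) + Real.log (s + (X + Y - d) / 2)
      = Real.log (s + P.b * P.q) + Real.log (s + P.a * P.p)
        + P.phi ((s + P.b * P.q) / P.p) + P.swap.phi ((s + P.a * P.p) / P.q) := by
  intro X Y d
  obtain ⟨a0, a1, b0, b1, c0, cle, p0, q0⟩ := hP
  have hd2 : d ^ 2 = (X - Y) ^ 2 + 4 * P.c2 * (P.p * P.q) :=
    Real.sq_sqrt (by positivity)
  have hd0 : 0 ≤ d := Real.sqrt_nonneg _
  have hX : (1 - P.a) * P.p ≤ X := by simp only [X]; nlinarith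
  have hY : (1 - P.b) * P.q ≤ Y := by simp only [Y]; nlinarith
  have hap : 0 ≤ (1 - P.a) * P.p := by nlinarith
  have hbq : 0 ≤ (1 - P.b) * P.q := by nlinarith
  have hXY : P.c2 * (P.p * P.q) ≤ X * Y := by
    refine le_trans ?_ (mul_le_mul hX hY hbq (le_trans hap hX))
    calc P.c2 * (P.p * P.q) ≤ ((1 - P.a) * (1 - P.b)) * (P.p * P.q) :=
          mul_le_mul_of_nonneg_right cle (by positivity)
      _ = _ := by ring
  have hm : 0 ≤ X + Y - d := by
    have h1 : d ^ 2 ≤ (X + Y) ^ 2 := by rw [hd2]; nlinarith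
    have h2 : 0 ≤ X + Y := by linarith
    nlinarith [(pow_le_pow_iff_left₀ hd0 h2 (n := 2) (by norm_num)).mp h1]
  refine ⟨hm, ?_⟩
  have hy : 0 < (s + P.b * P.q) / P.p := by positivity
  have hz : 0 < (s + P.a * P.p) / P.q := by positivity
  have e := Par.separable_eq (P := P) ⟨a0, a1, b0, b1, c0, cle, p0, q0⟩ hs
  rw [Par.F] at e
  have hlo : 0 < s + (X + Y - d) / 2 := by linarith
  have hhi : 0 < s + (X + Y + d) / 2 := by linarith
  rw [← Real.log_mul hhi.ne' hlo.ne']
  have e2 : (s + (X + Y + d) / 2) * (s + (X + Y - d) / 2)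
      = (P.p * P.q) * (((s + P.b * P.q) / P.p + (1 - P.a)) * ((s + P.a * P.p) / P.q + (1 - P.b))
          - P.c2) := by
    have : (s + (X + Y + d) / 2) * (s + (X + Y - d) / 2)
        = (s + X) * (s + Y) - P.c2 * (P.p * P.q) := by linear_combination (-1 / 4 : ℝ) * hd2
    rw [this]
    simp only [X, Y]
    field_simp
    ring
  have hpos : 0 < ((s + P.b * P.q) / P.p + (1 - P.a)) * ((s + P.a * P.p) / P.q + (1 - P.b))
          - P.c2 := by
    have := mul_pos hy hz
    nlinarith [mul_pos hy (sub_pos.mpr b1), mul_pos hz (sub_pos.mpr a1)]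
  rw [e2, Real.log_mul (by positivity) hpos.ne', ← e, Real.log_mul p0.ne' q0.ne',
    Real.log_div (by positivity) p0.ne', Real.log_div (by positivity) q0.ne']
  ring

/-- Integrals of sums of shifted logarithms, with the linear part removed. -/
theorem sum_logInt {κ : Type*} [Fintype κ] {L : ℝ} (hL : 0 ≤ L) (μ : κ → ℝ) (hμ : ∀ k, 0 ≤ μ k) :
    ∫ s in Set.Ioc 0 L, ∑ k, Real.log (s + μ k)
      = (∑ k, Real.negMulLog (μ k)) + (∑ k, logRem L (μ k))
        + (Fintype.card κ : ℝ) * (L * Real.log L - L) + (∑ k, μ k) * (Real.log L + 1) := by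
  rw [integral_finsetSum _ fun k _ => logInt_integrable hL]
  simp_rw [logInt_eq hL (hμ _)]
  rw [Finset.sum_mul, ← Finset.card_univ, ← Finset.sum_add_distrib, ← smul_eq_mul (α := ℝ),
    Nat.cast_smul_eq_nsmul, ← Finset.sum_const, ← Finset.sum_add_distrib, ← Finset.sum_add_distrib]
  refine Finset.sum_congr rfl fun k _ => ?_
  simp only [logRem]
  ring

theorem key_posDef {γ ν : ℝ} (hγ : γ ∈ Set.Ico (0:ℝ) 1) (hν : ν ∈ Set.Icc (0:ℝ) 1)
    [Nonempty ι] {ω : Matrix (Fin 2 × ι) (Fin 2 × ι) ℂ} (hω : ω.PosDef) :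
    qub γ ν (blk ω 0 0).trace.re (blk ω 1 1).trace.re
      - Real.negMulLog (blk ω 0 0).trace.re - Real.negMulLog (blk ω 1 1).trace.re
      + nent (blk ω 0 0) + nent (blk ω 1 1)
    ≤ nent (gadcLeft γ ν ω) := by
  set P := parOf γ ν ω with hP
  have ok : P.Ok := parOf_ok hγ hν hω
  have hA : (blk ω 0 0).PosDef := hω.submatrix (e := fun i => (0, i)) (fun i j h => by simpa using h)
  have hQ : (blk ω 1 1).PosDef := hω.submatrix (e := fun i => (1, i)) (fun i j h => by simpa using h)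
  have hO : (gadcLeft γ ν ω).PosSemidef :=
    gadcLeft_posSemidef ⟨hγ.1, hγ.2.le⟩ hν hω.posSemidef
  have hex : ∀ (A M : Matrix ι ι ℂ), A.PosDef → M.PosSemidef → ∀ (c : ℝ), 0 ≤ c → ∀ s : ℝ,
      ∃ (T : Matrix ι ι ℂ) (y : ι → ℝ), 0 < s → (∀ i, 0 < y i) ∧ IsUnit T.det ∧ T * Tᴴ = A ∧
        T * Matrix.diagonal (fun i => (y i : ℂ)) * Tᴴ
          = (s : ℂ) • (1 : Matrix ι ι ℂ) + (c : ℂ) • M := by
    intro A M hA hM c hc s
    by_cases hs : 0 < s
    · obtain ⟨T, y, h1, h2, h3, h4⟩ := exists_congr_diag hA (shift_posDef hM hs hc)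
      exact ⟨T, y, fun _ => ⟨h1, h2, h3, h4⟩⟩
    · exact ⟨1, fun _ => 1, fun h => absurd h hs⟩
  choose T1 y hy using hex _ _ hA hQ.posSemidef P.b ok.b0
  choose T2 z hz using hex _ _ hQ hA.posSemidef P.a ok.a0
  have ok' : P.swap.Ok := Par.Ok.swap ok
  set X := (1 - P.a) * P.p + P.b * P.q with hX
  set Y := P.a * P.p + (1 - P.b) * P.q with hY
  set d := Real.sqrt ((X - Y) ^ 2 + 4 * P.c2 * (P.p * P.q)) with hd
  set lp := (X + Y + d) / 2 with hlp
  set lm := (X + Y - d) / 2 with hlm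
  have hlm0 : 0 ≤ lm := by
    have := (roots_scalar P ok one_pos).1
    simp only [hlm, hd, hX, hY]
    linarith
  have hlp0 : 0 ≤ lp := by
    have := Real.sqrt_nonneg ((X - Y) ^ 2 + 4 * P.c2 * (P.p * P.q))
    rw [hlp]
    rw [hlm] at hlm0
    linarith
  set μQ := fun k => P.b * hQ.1.eigenvalues k with hμQ
  set μA := fun k => P.a * hA.1.eigenvalues k with hμA
  set μO := hO.1.eigenvalues with hμO
  set rem := fun L => ((∑ x, logRem L (μO x)) - (∑ k, logRem L (μQ k)) - ∑ k, logRem L (μA k))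
    - (logRem L lp + logRem L lm - logRem L (P.b * P.q) - logRem L (P.a * P.p)) with hrem
  set C := (∑ x, Real.negMulLog (μO x)) - (∑ k, Real.negMulLog (μQ k))
    - (∑ k, Real.negMulLog (μA k))
    - (Real.negMulLog lp + Real.negMulLog lm - Real.negMulLog (P.b * P.q)
      - Real.negMulLog (P.a * P.p)) with hC
  set R1 := fun L => (∑ i, ∫ s in Set.Ioc 0 L, P.phi (s / hA.1.eigenvalues i))
      - ((∫ s in Set.Ioc 0 L, P.phi (s / P.p)) + P.b * P.q * P.phi (L / P.p)) with hR1
  set R2 := fun L => (∑ i, ∫ s in Set.Ioc 0 L, P.swap.phi (s / hQ.1.eigenvalues i))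
      - ((∫ s in Set.Ioc 0 L, P.swap.phi (s / P.swap.p))
        + P.swap.b * P.swap.q * P.swap.phi (L / P.swap.p)) with hR2
  have hmain : ∀ L, 0 < L → R1 L + R2 L ≤ C + rem L := by
    intro L hL
    obtain ⟨hm1, hb1⟩ := layer_bound ok hA hQ rfl rfl y (fun s hs => (hy s hs).1)
      (fun s hs => ⟨T1 s, (hy s hs).2.1, (hy s hs).2.2.1, (hy s hs).2.2.2⟩) hL
    obtain ⟨hm2, hb2⟩ := layer_bound ok' hQ hA rfl rfl z (fun s hs => (hz s hs).1)
      (fun s hs => ⟨T2 s, (hz s hs).2.1, (hz s hs).2.2.1, (hz s hs).2.2.2⟩) hL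
    set g := fun s => (∑ x, Real.log (s + μO x)) - (∑ k, Real.log (s + μQ k))
      - ∑ k, Real.log (s + μA k) with hg
    have hgi : IntegrableOn g (Set.Ioc 0 L) :=
      ((integrable_finsetSum _ fun x _ => logInt_integrable hL.le).sub
        (integrable_finsetSum _ fun x _ => logInt_integrable hL.le)).sub
        (integrable_finsetSum _ fun x _ => logInt_integrable hL.le)
    have hsum1 : ∀ s, 0 < s → 0 ≤ ∑ i, P.phi (y s i) := fun s hs =>
      Finset.sum_nonneg fun i _ => Par.phi_nonneg ok ((hy s hs).1 i)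
    have hsum2 : ∀ s, 0 < s → 0 ≤ ∑ i, P.swap.phi (z s i) := fun s hs =>
      Finset.sum_nonneg fun i _ => Par.phi_nonneg ok' ((hz s hs).1 i)
    have hper : ∀ s, 0 < s → (∑ i, P.phi (y s i)) + (∑ i, P.swap.phi (z s i)) ≤ g s := by
      intro s hs
      have := per_shift hγ hν hω hs hA.1 hQ.1 hO.1 (hy s hs).1 (hz s hs).1 (hy s hs).2.1
        (hz s hs).2.1 (hy s hs).2.2.1 (hy s hs).2.2.2 (hz s hs).2.2.1 (hz s hs).2.2.2
      simp only [hg, hμQ, hμA, hμO]
      linarith
    have hg0 : 0 ≤ᵐ[volume.restrict (Set.Ioc 0 L)] g := by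
      filter_upwards [ae_restrict_mem measurableSet_Ioc] with s hs
      exact le_trans (add_nonneg (hsum1 s hs.1) (hsum2 s hs.1)) (hper s hs.1)
    have hint : (∫⁻ s in Set.Ioc 0 L, ENNReal.ofReal (∑ i, P.phi (y s i)))
        + (∫⁻ s in Set.Ioc 0 L, ENNReal.ofReal (∑ i, P.swap.phi (z s i)))
        ≤ ENNReal.ofReal (∫ s in Set.Ioc 0 L, g s) := by
      rw [← lintegral_add_left' hm1, ofReal_integral_eq_lintegral_ofReal hgi hg0]
      refine lintegral_mono_ae ?_
      filter_upwards [ae_restrict_mem measurableSet_Ioc] with s hs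
      rw [← ENNReal.ofReal_add (hsum1 s hs.1) (hsum2 s hs.1)]
      exact ENNReal.ofReal_le_ofReal (hper s hs.1)
    have nn : ∀ {P' : Par}, P'.Ok → ∀ {x w : ℝ}, 0 < x → 0 ≤ w →
        0 ≤ ∫ s in Set.Ioc 0 L, P'.phi ((s + w) / x) := fun {P'} h' {x w} hx hw =>
      setIntegral_nonneg measurableSet_Ioc fun s hs =>
        Par.phi_nonneg h' (div_pos (by linarith [hs.1]) hx)
    have nb : ∀ {P' : Par}, P'.Ok →
        0 ≤ (∫ s in Set.Ioc 0 L, P'.phi (s / P'.p)) + P'.b * P'.q * P'.phi (L / P'.p) := fun h' =>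
      add_nonneg (by simpa using nn h' h'.p0 le_rfl)
        (mul_nonneg (mul_nonneg h'.b0 h'.q0.le) (Par.phi_nonneg h' (div_pos hL h'.p0)))
    have na : ∀ {P' : Par}, P'.Ok → ∀ (e : ι → ℝ), (∀ i, 0 < e i) →
        0 ≤ (∑ i, ∫ s in Set.Ioc 0 L, P'.phi (s / e i))
          + ∫ s in Set.Ioc 0 L, P'.phi ((s + P'.b * P'.q) / P'.p) := fun h' e he =>
      add_nonneg (Finset.sum_nonneg fun i _ => by simpa using nn h' (he i) le_rfl)
        (nn h' h'.p0 (mul_nonneg h'.b0 h'.q0.le))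
    have hg1 : 0 ≤ ∫ s in Set.Ioc 0 L, g s := integral_nonneg_of_ae hg0
    have hall := add_le_add hb1 hb2
    rw [← ENNReal.ofReal_add (na ok _ hA.eigenvalues_pos) (na ok' _ hQ.eigenvalues_pos)] at hall
    have hall' : ENNReal.ofReal (((∑ i, ∫ s in Set.Ioc 0 L, P.phi (s / hA.1.eigenvalues i))
          + ∫ s in Set.Ioc 0 L, P.phi ((s + P.b * P.q) / P.p))
        + ((∑ i, ∫ s in Set.Ioc 0 L, P.swap.phi (s / hQ.1.eigenvalues i))
          + ∫ s in Set.Ioc 0 L, P.swap.phi ((s + P.swap.b * P.swap.q) / P.swap.p)))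
        ≤ ENNReal.ofReal ((∫ s in Set.Ioc 0 L, g s)
          + (((∫ s in Set.Ioc 0 L, P.phi (s / P.p)) + P.b * P.q * P.phi (L / P.p))
            + ((∫ s in Set.Ioc 0 L, P.swap.phi (s / P.swap.p))
              + P.swap.b * P.swap.q * P.swap.phi (L / P.swap.p)))) := by
      rw [ENNReal.ofReal_add hg1 (add_nonneg (nb ok) (nb ok')), ENNReal.ofReal_add (nb ok) (nb ok')]
      refine le_trans hall ?_
      rw [add_add_add_comm]
      exact add_le_add hint le_rfl
    rw [ENNReal.ofReal_le_ofReal_iff (add_nonneg hg1 (add_nonneg (nb ok) (nb ok')))] at hall'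
    have hscal : (∫ s in Set.Ioc 0 L, P.phi ((s + P.b * P.q) / P.p))
        + (∫ s in Set.Ioc 0 L, P.swap.phi ((s + P.swap.b * P.swap.q) / P.swap.p))
        = ∫ s in Set.Ioc 0 L, (Real.log (s + lp) + Real.log (s + lm)
          - Real.log (s + P.b * P.q) - Real.log (s + P.a * P.p)) := by
      rw [← integral_add (affine_comp_integrable ok ok.p0 (mul_nonneg ok.b0 ok.q0.le) hL.le)
        (affine_comp_integrable ok' ok'.p0 (mul_nonneg ok'.b0 ok'.q0.le) hL.le)]
      refine setIntegral_congr_fun measurableSet_Ioc fun s hs => ?_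
      have := (roots_scalar P ok hs.1).2
      simp only [hlp, hlm, hd, hX, hY, Par.swap] at this ⊢
      linarith
    have il : ∀ x, IntegrableOn (fun s => Real.log (s + x)) (Set.Ioc 0 L) := fun x =>
      logInt_integrable hL.le
    have hgint : ∫ s in Set.Ioc 0 L, g s
        = (∫ s in Set.Ioc 0 L, ∑ x, Real.log (s + μO x))
          - (∫ s in Set.Ioc 0 L, ∑ k, Real.log (s + μQ k))
          - ∫ s in Set.Ioc 0 L, ∑ k, Real.log (s + μA k) := by
      have i : ∀ {κ : Type _} [Fintype κ] (μ : κ → ℝ),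
          IntegrableOn (fun s => ∑ k, Real.log (s + μ k)) (Set.Ioc 0 L) := fun μ =>
        integrable_finsetSum _ fun x _ => il _
      simp only [hg]
      rw [integral_sub, integral_sub]
      · exact i μO
      · exact i μQ
      · exact (i μO).sub (i μQ)
      · exact i μA
    have hμO0 : ∀ x, 0 ≤ μO x := hO.eigenvalues_nonneg
    have hμQ0 : ∀ k, 0 ≤ μQ k := fun k => mul_nonneg ok.b0 (hQ.posSemidef.eigenvalues_nonneg k)
    have hμA0 : ∀ k, 0 ≤ μA k := fun k => mul_nonneg ok.a0 (hA.posSemidef.eigenvalues_nonneg k)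
    rw [sum_logInt hL.le μO hμO0, sum_logInt hL.le μQ hμQ0, sum_logInt hL.le μA hμA0] at hgint
    have hsc : ∫ s in Set.Ioc 0 L, (Real.log (s + lp) + Real.log (s + lm)
          - Real.log (s + P.b * P.q) - Real.log (s + P.a * P.p))
        = (Real.negMulLog lp + Real.negMulLog lm - Real.negMulLog (P.b * P.q)
            - Real.negMulLog (P.a * P.p))
          + (logRem L lp + logRem L lm - logRem L (P.b * P.q) - logRem L (P.a * P.p))
          + (lp + lm - P.b * P.q - P.a * P.p) * (Real.log L + 1) := by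
      have s1 : IntegrableOn (fun s => Real.log (s + lp) + Real.log (s + lm)) (Set.Ioc 0 L) :=
        (il _).add (il _)
      have s2 : IntegrableOn (fun s => Real.log (s + lp) + Real.log (s + lm)
          - Real.log (s + P.b * P.q)) (Set.Ioc 0 L) := s1.sub (il _)
      rw [integral_sub s2 (il _), integral_sub s1 (il _), integral_add (il _) (il _),
        logInt_eq hL.le hlp0, logInt_eq hL.le hlm0, logInt_eq hL.le (mul_nonneg ok.b0 ok.q0.le),
        logInt_eq hL.le (mul_nonneg ok.a0 ok.p0.le)]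
      simp only [logRem]
      ring
    have htr : ∑ x, μO x = X + Y := by
      rw [hμO, sumEig_real]
      have e : (gadcLeft γ ν ω).trace
          = ((1 - γ * ν : ℝ) : ℂ) * (blk ω 0 0).trace + ((γ * (1 - ν) : ℝ) : ℂ) * (blk ω 1 1).trace
            + (((γ * ν : ℝ) : ℂ) * (blk ω 0 0).trace
              + ((1 - γ + γ * ν : ℝ) : ℂ) * (blk ω 1 1).trace) := by
        simp [Matrix.trace, Fintype.sum_prod_type, Fin.sum_univ_two, gadcLeft, kern, blk,
          Finset.mul_sum, Finset.sum_add_distrib, mul_comm]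
        ring
      have e' := congrArg Complex.re e
      simp only [Complex.add_re, Complex.re_ofReal_mul] at e'
      rw [e']
      simp only [hX, hY, hP, parOf]
      ring
    have hμQs : ∑ k, μQ k = P.b * P.q := by
      simp only [hμQ, ← Finset.mul_sum, sumEig_real hQ.1]
      rfl
    have hμAs : ∑ k, μA k = P.a * P.p := by
      simp only [hμA, ← Finset.mul_sum, sumEig_real hA.1]
      rfl
    have hcard : (Fintype.card (Fin 2 × ι) : ℝ) = 2 * Fintype.card ι := by simp
    rw [hcard, htr, hμQs, hμAs] at hgint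
    rw [hsc] at hscal
    have hlin : lp + lm = X + Y := by rw [hlp, hlm]; ring
    rw [hlin] at hscal
    simp only [hR1, hR2, hC, hrem]
    linarith
  have hrem0 : Tendsto rem atTop (𝓝 0) := by
    have t : ∀ {x : ℝ}, 0 ≤ x → Tendsto (fun L => logRem L x) atTop (𝓝 0) := fun hx =>
      logRem_tendsto hx
    have ts : ∀ {κ : Type _} [Fintype κ] (μ : κ → ℝ), (∀ k, 0 ≤ μ k) →
        Tendsto (fun L => ∑ k, logRem L (μ k)) atTop (𝓝 0) := fun μ h => by
      simpa using tendsto_finsetSum (Finset.univ : Finset _) fun k _ => t (h k)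
    have a1 := ts μO hO.eigenvalues_nonneg
    have a2 := ts μQ fun k => mul_nonneg ok.b0 (hQ.posSemidef.eigenvalues_nonneg k)
    have a3 := ts μA fun k => mul_nonneg ok.a0 (hA.posSemidef.eigenvalues_nonneg k)
    have a4 := (((t hlp0).add (t hlm0)).sub (t (mul_nonneg ok.b0 ok.q0.le))).sub
      (t (mul_nonneg ok.a0 ok.p0.le))
    simpa [hrem] using ((a1.sub a2).sub a3).sub a4
  have hlim := le_of_tendsto_of_tendsto
    ((ref_tendsto ok _ hA.eigenvalues_pos (sumEig_real hA.1)).add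
      (ref_tendsto ok' _ hQ.eigenvalues_pos (sumEig_real hQ.1)))
    (tendsto_const_nhds.add hrem0)
    ((eventually_gt_atTop (0:ℝ)).mono fun L hL => hmain L hL)
  simp only [hC, add_zero, hμQ, hμA, hμO, Real.negMulLog_mul, Finset.sum_add_distrib,
    ← Finset.mul_sum, ← Finset.sum_mul, sumEig_real hQ.1, sumEig_real hA.1, Par.swap] at hlim
  rw [nent_eq hA.1, nent_eq hQ.1, nent_eq hO.1]
  have hqub : qub γ ν P.p P.q = Real.negMulLog lp + Real.negMulLog lm := by
    simp only [qub, hlp, hlm, hd, hX, hY, hP, parOf]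
    ring_nf
  have hp : (blk ω 0 0).trace.re = P.p := rfl
  have hq : (blk ω 1 1).trace.re = P.q := rfl
  rw [hp, hq, hqub]
  rw [hp, hq] at hlim
  linarith [hlim]

theorem key {γ ν : ℝ} (hγ : γ ∈ Set.Icc (0:ℝ) 1) (hν : ν ∈ Set.Icc (0:ℝ) 1)
    {ω : Matrix (Fin 2 × ι) (Fin 2 × ι) ℂ} (hω : ω.PosSemidef) :
    qub γ ν (blk ω 0 0).trace.re (blk ω 1 1).trace.re
      - Real.negMulLog (blk ω 0 0).trace.re - Real.negMulLog (blk ω 1 1).trace.re
      + nent (blk ω 0 0) + nent (blk ω 1 1)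
    ≤ nent (gadcLeft γ ν ω) := by
  cases isEmpty_or_nonempty ι
  · simp [qub, nent, Matrix.trace]
  let om : Set.Icc (0:ℝ) 1 → Matrix (Fin 2 × ι) (Fin 2 × ι) ℂ := fun e => ω + ((e:ℝ) : ℂ) • 1
  let ga : Set.Icc (0:ℝ) 1 → ℝ := fun e => γ * (1 - e)
  have hga : ∀ e, ga e ∈ Set.Icc (0:ℝ) 1 := fun e =>
    ⟨mul_nonneg hγ.1 (by linarith [e.2.2]), by
      simp only [ga]; nlinarith [hγ.1, hγ.2, e.2.1, e.2.2]⟩
  have hom : ∀ e, (om e).PosSemidef := fun e =>
    hω.add (Matrix.PosSemidef.one.smul (Complex.zero_le_real.mpr e.2.1))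
  have hc : Continuous om := by fun_prop
  have hgc : Continuous ga := by fun_prop
  have hb : ∀ u v, Continuous fun e => blk (om e) u v := fun u v =>
    continuous_matrix fun i j => hc.matrix_elem _ _
  have hO : Continuous fun e => gadcLeft (ga e) ν (om e) := by
    refine continuous_matrix fun x y => ?_
    simp only [gadcLeft, kern]
    refine continuous_finsetSum _ fun u _ => continuous_finsetSum _ fun v _ =>
      (hc.matrix_elem _ _).mul ?_
    split_ifs <;> fun_prop
  have hF1 : Continuous fun e => nent (gadcLeft (ga e) ν (om e)) :=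
    continuous_nent _ hO fun e => gadcLeft_posSemidef (hga e) hν (hom e)
  have hFb : ∀ u, Continuous fun e => nent (blk (om e) u u) := fun u =>
    continuous_nent _ (hb u u) fun e => (hom e).submatrix fun i => (u, i)
  have htr : ∀ u, Continuous fun e => (blk (om e) u u).trace.re := fun u =>
    Complex.continuous_re.comp (hb u u).matrix_trace
  have hqub : Continuous fun e =>
      qub (ga e) ν (blk (om e) 0 0).trace.re (blk (om e) 1 1).trace.re := by
    have := htr 0
    have := htr 1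
    have := Real.continuous_negMulLog
    simp only [qub]
    fun_prop
  let e0 : Set.Icc (0:ℝ) 1 := ⟨0, by simp⟩
  let seq : ℕ → Set.Icc (0:ℝ) 1 := fun k => ⟨1 / ((k:ℝ) + 1), by positivity, by
    rw [div_le_one (by positivity)]; linarith [(Nat.cast_nonneg k : (0:ℝ) ≤ k)]⟩
  have hseq : Tendsto seq atTop (𝓝 e0) :=
    tendsto_subtype_rng.mpr tendsto_one_div_add_atTop_nhds_zero_nat
  have hle := le_of_tendsto_of_tendsto
    ((((((hqub.sub (Real.continuous_negMulLog.comp (htr 0))).sub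
      (Real.continuous_negMulLog.comp (htr 1))).add (hFb 0)).add (hFb 1)).tendsto e0).comp hseq)
    ((hF1.tendsto e0).comp hseq) ?_
  · have e1 : om e0 = ω := by simp [om, e0]
    have e2 : ga e0 = γ := by simp [ga, e0]
    simpa [e1, e2] using hle
  · refine Eventually.of_forall fun k => ?_
    have hpos : (0:ℝ) < (seq k : ℝ) := by
      show (0:ℝ) < 1 / ((k:ℝ) + 1)
      positivity
    have hpd : (om (seq k)).PosDef := by
      show (ω + (((seq k : ℝ)) : ℂ) • (1 : Matrix (Fin 2 × ι) (Fin 2 × ι) ℂ)).PosDef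
      rw [add_comm]
      exact (Matrix.PosDef.one.smul
        (show (0:ℂ) < (((seq k : ℝ)) : ℂ) from Complex.zero_lt_real.mpr hpos)).add_posSemidef hω
    have hlt : ga (seq k) < 1 := by
      simp only [ga]
      nlinarith [hγ.1, hγ.2, hpos, (seq k).2.2]
    exact key_posDef ⟨(hga _).1, hlt⟩ hν hpd

end VAgent.P358
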