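import Vale.Agent.P358.Defs

/-!
# P358: block form of the one-qubit channel and eigenvalue sums
-/

namespace VAgent.P358

open Matrix
open scoped ComplexOrder

variable {ι : Type*} [Fintype ι] [DecidableEq ι]

/-- The equivalence between qubit times `ι` and two copies of `ι`. -/
def qEquiv (ι : Type*) : Fin 2 × ι ≃ ι ⊕ ι where
  toFun x := if x.1 = 0 then Sum.inl x.2 else Sum.inr x.2
  invFun := Sum.elim (fun i => (0, i)) (fun i => (1, i))
  left_inv := by
    rintro ⟨u, i⟩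
    fin_cases u <;> simp
  right_inv := by rintro (i | i) <;> simp

theorem eq_fromBlocks (ω : Matrix (Fin 2 × ι) (Fin 2 × ι) ℂ) :
    Matrix.reindex (qEquiv ι) (qEquiv ι) ω
      = Matrix.fromBlocks (blk ω 0 0) (blk ω 0 1) (blk ω 1 0) (blk ω 1 1) := by
  ext (i | i) (j | j) <;> simp [qEquiv, blk]

theorem blk_conjTranspose {ω : Matrix (Fin 2 × ι) (Fin 2 × ι) ℂ} (h : ω.IsHermitian)
    (u v : Fin 2) : (blk ω u v)ᴴ = blk ω v u := by
  ext i j
  exact h.apply (v, i) (u, j)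

theorem gadcLeft_blocks (γ ν : ℝ) (ω : Matrix (Fin 2 × ι) (Fin 2 × ι) ℂ) :
    Matrix.reindex (qEquiv ι) (qEquiv ι) (gadcLeft γ ν ω)
      = Matrix.fromBlocks
          (((1 - γ * ν : ℝ) : ℂ) • blk ω 0 0 + ((γ * (1 - ν) : ℝ) : ℂ) • blk ω 1 1)
          (((Real.sqrt (1 - γ) : ℝ) : ℂ) • blk ω 0 1)
          (((Real.sqrt (1 - γ) : ℝ) : ℂ) • blk ω 1 0)
          (((γ * ν : ℝ) : ℂ) • blk ω 0 0 + ((1 - γ + γ * ν : ℝ) : ℂ) • blk ω 1 1) := by
  ext (i | i) (j | j) <;>
    simp [qEquiv, blk, gadcLeft, kern, Fin.sum_univ_two, mul_comm]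

/-- The diagonal Kraus block matrix on two copies of `ι`. -/
def kDiag (x y : ℝ) : Matrix (ι ⊕ ι) (ι ⊕ ι) ℂ :=
  Matrix.fromBlocks ((x : ℂ) • 1) 0 0 ((y : ℂ) • 1)

/-- The two jump block matrices. -/
def kJump (x y : ℝ) : Matrix (ι ⊕ ι) (ι ⊕ ι) ℂ :=
  Matrix.fromBlocks 0 ((x : ℂ) • 1) ((y : ℂ) • 1) 0

theorem kDiag_conj (x y : ℝ) (A B C D : Matrix ι ι ℂ) :
    kDiag x y * Matrix.fromBlocks A B C D * (kDiag x y)ᴴ
      = Matrix.fromBlocks (((x * x : ℝ) : ℂ) • A) (((x * y : ℝ) : ℂ) • B)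
          (((x * y : ℝ) : ℂ) • C) (((y * y : ℝ) : ℂ) • D) := by
  simp [kDiag, Matrix.fromBlocks_conjTranspose, Matrix.fromBlocks_multiply, smul_smul, mul_comm,
    -Complex.coe_smul, Complex.conj_ofReal]

theorem kJump_conj (x y : ℝ) (A B C D : Matrix ι ι ℂ) :
    kJump x y * Matrix.fromBlocks A B C D * (kJump x y)ᴴ
      = Matrix.fromBlocks (((x * x : ℝ) : ℂ) • D) (((x * y : ℝ) : ℂ) • C)
          (((x * y : ℝ) : ℂ) • B) (((y * y : ℝ) : ℂ) • A) := by
  simp [kJump, Matrix.fromBlocks_conjTranspose, Matrix.fromBlocks_multiply, smul_smul, mul_comm,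
    -Complex.coe_smul, Complex.conj_ofReal]

theorem gadcLeft_posSemidef {γ ν : ℝ} (hγ : γ ∈ Set.Icc (0:ℝ) 1) (hν : ν ∈ Set.Icc (0:ℝ) 1)
    {ω : Matrix (Fin 2 × ι) (Fin 2 × ι) ℂ} (hω : ω.PosSemidef) :
    (gadcLeft γ ν ω).PosSemidef := by
  obtain ⟨hγ0, hγ1⟩ := hγ
  obtain ⟨hν0, hν1⟩ := hν
  have hB : (Matrix.reindex (qEquiv ι) (qEquiv ι) ω).PosSemidef := hω.submatrix _
  rw [eq_fromBlocks] at hB
  suffices h : (Matrix.reindex (qEquiv ι) (qEquiv ι) (gadcLeft γ ν ω)).PosSemidef by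
    have := h.submatrix (qEquiv ι)
    simpa using this
  rw [gadcLeft_blocks]
  set u := Real.sqrt (1 - ν) with hu
  set v := Real.sqrt ν with hv
  set c := Real.sqrt (1 - γ) with hc
  set g := Real.sqrt γ with hg
  have u2 : u * u = 1 - ν := Real.mul_self_sqrt (by linarith)
  have v2 : v * v = ν := Real.mul_self_sqrt hν0
  have c2 : c * c = 1 - γ := Real.mul_self_sqrt (by linarith)
  have g2 : g * g = γ := Real.mul_self_sqrt hγ0
  have key := (((hB.mul_mul_conjTranspose_same (kDiag u (u * c))).add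
    (hB.mul_mul_conjTranspose_same (kDiag (v * c) v))).add
    (hB.mul_mul_conjTranspose_same (kJump (g * u) 0))).add
    (hB.mul_mul_conjTranspose_same (kJump 0 (g * v)))
  simp only [kDiag_conj, kJump_conj, Matrix.fromBlocks_add, mul_zero, zero_mul, Complex.ofReal_zero,
    zero_smul, add_zero, ← add_smul, ← Complex.ofReal_add] at key
  have e1 : u * u + v * c * (v * c) = 1 - γ * ν := by
    linear_combination u2 + c * c * v2 + ν * c2
  have e2 : g * u * (g * u) = γ * (1 - ν) := by linear_combination u * u * g2 + γ * u2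
  have e3 : u * (u * c) + v * c * v = c := by linear_combination c * u2 + c * v2
  have e4 : u * c * (u * c) + v * v = 1 - γ + γ * ν := by
    linear_combination c * c * u2 + (1 - ν) * c2 + v2
  have e5 : g * v * (g * v) = γ * ν := by linear_combination v * v * g2 + γ * v2
  rw [e1, e2, e3, e4, e5] at key
  rw [add_comm (((γ * ν : ℝ) : ℂ) • blk ω 0 0)]
  exact key

end VAgent.P358
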