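import Vale.Agent.P358.Spectral

/-!
# P358: determinant bound for a two by two block matrix with a contraction
-/

namespace VAgent.P358

open Matrix Filter
open scoped ComplexOrder Topology

variable {ι : Type*} [Fintype ι] [DecidableEq ι]

/-- Squared moduli of the entries. -/
noncomputable def nsqMat (K : Matrix ι ι ℂ) : Matrix ι ι ℝ := fun i j => Complex.normSq (K i j)

theorem block_quad (K : Matrix ι ι ℂ) (hK : (Matrix.fromBlocks 1 K Kᴴ 1).PosSemidef)
    (x : ι → ℂ) : ∑ i, Complex.normSq ((K *ᵥ x) i) ≤ ∑ j, Complex.normSq (x j) := by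
  have h := hK.dotProduct_mulVec_nonneg (Sum.elim (-(K *ᵥ x)) x)
  rw [Matrix.fromBlocks_mulVec] at h
  simp only [dotProduct, Fintype.sum_sum_type, Pi.star_apply, Sum.elim_inl, Sum.elim_inr,
    Function.comp_def, Matrix.one_mulVec, Pi.add_apply, Pi.neg_apply, neg_add_cancel,
    mul_zero, Finset.sum_const_zero, zero_add] at h
  have e : ∑ j, star (x j) * (Kᴴ *ᵥ fun i => -(K *ᵥ x) i) j
      = -∑ i, (Complex.normSq ((K *ᵥ x) i) : ℂ) := by
    show star x ⬝ᵥ (Kᴴ *ᵥ (-(K *ᵥ x))) = _
    rw [Matrix.dotProduct_mulVec, ← Matrix.star_mulVec, dotProduct_neg, dotProduct]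
    simp [Pi.star_apply, Complex.normSq_eq_conj_mul_self]
  have e2 : ∑ j, star (x j) * x j = ∑ j, (Complex.normSq (x j) : ℂ) :=
    Finset.sum_congr rfl fun j _ => by rw [Complex.normSq_eq_conj_mul_self, Complex.star_def]
  have hh := (Complex.le_def.mp h).1
  simp only [mul_add, Finset.sum_add_distrib] at hh
  rw [e, e2] at hh
  simp only [Complex.add_re, Complex.neg_re, Complex.re_sum, Complex.ofReal_re, Complex.zero_re]
    at hh
  linarith

theorem congr_diag_re (Z : Matrix ι ι ℂ) (r : ι → ℝ) (k : ι) :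
    ((Zᴴ * Matrix.diagonal (fun i => (r i : ℂ)) * Z) k k).re
      = ∑ i, r i * Complex.normSq (Z i k) := by
  rw [Matrix.mul_apply, Complex.re_sum]
  refine Finset.sum_congr rfl fun i _ => ?_
  simp [Matrix.mul_diagonal, Complex.normSq_apply]
  ring

theorem block_col (K : Matrix ι ι ℂ) (hK : (Matrix.fromBlocks 1 K Kᴴ 1).PosSemidef) (j : ι) :
    ∑ i, nsqMat K i j ≤ 1 := by
  have h := block_quad K hK (Pi.single j 1)
  simpa [nsqMat, Pi.single_apply, apply_ite] using h

omit [Fintype ι] in
theorem block_flip (K : Matrix ι ι ℂ) (hK : (Matrix.fromBlocks 1 K Kᴴ 1).PosSemidef) :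
    (Matrix.fromBlocks 1 Kᴴ Kᴴᴴ 1).PosSemidef := by
  have h := hK.submatrix (Equiv.sumComm ι ι)
  simpa [Matrix.conjTranspose_conjTranspose] using h

theorem block_row (K : Matrix ι ι ℂ) (hK : (Matrix.fromBlocks 1 K Kᴴ 1).PosSemidef) (i : ι) :
    ∑ j, nsqMat K i j ≤ 1 := by
  have h := block_col Kᴴ (block_flip K hK) i
  simpa [nsqMat, Matrix.conjTranspose_apply] using h

theorem sq_bound (a y : ℂ) {r : ℝ} (hr : 0 < r) :
    2 * ((starRingEnd ℂ) a * y).re - r * Complex.normSq y ≤ Complex.normSq a / r := by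
  rw [le_div_iff₀ hr]
  have h := Complex.normSq_nonneg ((r : ℂ) * y - a)
  simp only [Complex.normSq_apply, Complex.sub_re, Complex.sub_im, Complex.mul_re, Complex.mul_im,
    Complex.ofReal_re, Complex.ofReal_im, Complex.conj_re, Complex.conj_im] at *
  nlinarith

/-- Trace of the resolvent of `diag R - Kᴴ diag e K`, bounded by completing squares. -/
theorem resolvent_trace_le (K X : Matrix ι ι ℂ) (R e : ι → ℝ)
    (hK : (Matrix.fromBlocks 1 K Kᴴ 1).PosSemidef) (hR : ∀ k, 0 < R k)
    (hRe : ∀ i k, e i < R k) (hX : X.IsHermitian)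
    (hWX : (Matrix.diagonal (fun k => (R k : ℂ)) - Kᴴ * Matrix.diagonal (fun i => (e i : ℂ)) * K)
      * X = 1) :
    X.trace.re ≤ (∑ k, ∑ i, nsqMat K i k / (R k - e i))
      + ∑ k, (1 - ∑ i, nsqMat K i k) / R k := by
  set Y := K * X with hY
  have hsym : ∀ j k, Complex.normSq (X j k) = Complex.normSq (X k j) := fun j k => by
    conv_lhs => rw [← hX.apply j k]
    exact Complex.normSq_conj _
  have htr : X.trace.re
      = (∑ k, ∑ j, R k * Complex.normSq (X j k)) - ∑ k, ∑ i, e i * Complex.normSq (Y i k) := by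
    have h1 : X = X * Matrix.diagonal (fun k => (R k : ℂ)) * X
        - (K * X)ᴴ * Matrix.diagonal (fun i => (e i : ℂ)) * (K * X) := by
      calc X = X * ((Matrix.diagonal (fun k => (R k : ℂ))
              - Kᴴ * Matrix.diagonal (fun i => (e i : ℂ)) * K) * X) := by rw [hWX, Matrix.mul_one]
        _ = _ := by
          rw [Matrix.conjTranspose_mul, hX.eq]
          simp only [Matrix.mul_sub, Matrix.sub_mul, Matrix.mul_assoc]
    have h2 := congrArg (fun Z : Matrix ι ι ℂ => Z.trace.re) h1
    simp only [Matrix.trace, Matrix.diag, Matrix.sub_apply, Complex.re_sum, Complex.sub_re,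
      Finset.sum_sub_distrib] at h2
    nth_rewrite 2 [← hX.eq] at h2
    simp only [congr_diag_re] at h2
    rw [Finset.sum_comm (f := fun k j => R j * Complex.normSq (X j k))] at h2
    simp only [Matrix.trace, Matrix.diag, Complex.re_sum, hY]
    rw [h2]
    congr 1
    exact Finset.sum_congr rfl fun k _ => Finset.sum_congr rfl fun j _ => by rw [hsym]
  have hcol : ∀ k, 2 * (X k k).re
      - ((∑ j, R k * Complex.normSq (X j k)) - ∑ i, e i * Complex.normSq (Y i k))
      ≤ (∑ i, nsqMat K i k / (R k - e i)) + (1 - ∑ i, nsqMat K i k) / R k := by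
    intro k
    have hq := block_quad K hK (fun j => (R k : ℂ) * X j k - if j = k then 1 else 0)
    have hK' : ∀ i, (K *ᵥ fun j => (R k : ℂ) * X j k - if j = k then 1 else 0) i
        = (R k : ℂ) * Y i k - K i k := by
      intro i
      simp [Matrix.mulVec, dotProduct, hY, Matrix.mul_apply, mul_sub, Finset.sum_sub_distrib,
        Finset.mul_sum, mul_left_comm]
    simp only [hK'] at hq
    have ex : ∑ j, Complex.normSq ((R k : ℂ) * X j k - if j = k then 1 else 0)
        = R k * R k * (∑ j, Complex.normSq (X j k)) - 2 * R k * (X k k).re + 1 := by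
      have hj : ∀ j, Complex.normSq ((R k : ℂ) * X j k - if j = k then 1 else 0)
          = R k * R k * Complex.normSq (X j k)
            + (if j = k then 1 - 2 * R k * (X k k).re else 0) := by
        intro j
        by_cases h : j = k
        · subst h
          simp [Complex.normSq_apply]
          ring
        · simp [h]
      simp only [hj, Finset.sum_add_distrib, ← Finset.mul_sum, Finset.sum_ite_eq',
        Finset.mem_univ, if_true]
      ring
    have ey : ∑ i, Complex.normSq ((R k : ℂ) * Y i k - K i k)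
        = R k * R k * (∑ i, Complex.normSq (Y i k))
          - 2 * R k * (∑ i, ((starRingEnd ℂ) (K i k) * Y i k).re) + ∑ i, nsqMat K i k := by
      rw [Finset.mul_sum, Finset.mul_sum, ← Finset.sum_sub_distrib, ← Finset.sum_add_distrib]
      refine Finset.sum_congr rfl fun i _ => ?_
      simp [nsqMat, Complex.normSq_apply]
      ring
    rw [ex, ey] at hq
    have hp : ∑ i, (2 * ((starRingEnd ℂ) (K i k) * Y i k).re
        - (R k - e i) * Complex.normSq (Y i k)) ≤ ∑ i, nsqMat K i k / (R k - e i) :=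
      Finset.sum_le_sum fun i _ => sq_bound (K i k) (Y i k) (sub_pos.mpr (hRe i k))
    have hrest : 2 * (X k k).re - 2 * (∑ i, ((starRingEnd ℂ) (K i k) * Y i k).re)
        - R k * (∑ j, Complex.normSq (X j k)) + R k * (∑ i, Complex.normSq (Y i k))
        ≤ (1 - ∑ i, nsqMat K i k) / R k := by
      rw [le_div_iff₀ (hR k)]
      nlinarith
    simp only [Finset.sum_sub_distrib, sub_mul, ← Finset.mul_sum] at hp
    rw [← Finset.mul_sum]
    linarith
  have hs := Finset.sum_le_sum (s := Finset.univ) fun k _ => hcol k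
  simp only [Finset.sum_sub_distrib, Finset.sum_add_distrib, ← Finset.mul_sum] at hs
  have ht : X.trace.re = ∑ k, (X k k).re := by simp [Matrix.trace, Complex.re_sum]
  simp only [← Finset.mul_sum] at htr
  linarith

theorem tendsto_log_shift (a : ℝ) :
    Tendsto (fun t : ℝ => Real.log (t + a) - Real.log t) atTop (𝓝 0) := by
  have h1 : Tendsto (fun t : ℝ => 1 + a * t⁻¹) atTop (𝓝 1) := by
    simpa using (tendsto_inv_atTop_zero.const_mul a).const_add (1 : ℝ)
  have h2 := (Real.continuousAt_log (one_ne_zero)).tendsto.comp h1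
  rw [Real.log_one] at h2
  refine h2.congr' ?_
  filter_upwards [eventually_gt_atTop (0 : ℝ), eventually_gt_atTop (-a)] with t ht ht'
  rw [Function.comp_apply, ← Real.log_div (by linarith) (by linarith)]
  congr 1
  field_simp

/-- Log-determinant of the Schur complement against the separable sum. -/
theorem logDet_schur_ge (K : Matrix ι ι ℂ) (R e : ι → ℝ)
    (hK : (Matrix.fromBlocks 1 K Kᴴ 1).PosSemidef) (hR : ∀ k, 0 < R k) (he : ∀ i, 0 ≤ e i)
    (hRe : ∀ i k, e i < R k) :
    0 < (Matrix.diagonal (fun k => (R k : ℂ))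
        - Kᴴ * Matrix.diagonal (fun i => (e i : ℂ)) * K).det.re ∧
    (∑ k, ∑ i, nsqMat K i k * Real.log (R k - e i))
      + ∑ k, (1 - ∑ i, nsqMat K i k) * Real.log (R k)
      ≤ Real.log (Matrix.diagonal (fun k => (R k : ℂ))
        - Kᴴ * Matrix.diagonal (fun i => (e i : ℂ)) * K).det.re := by
  set W := Matrix.diagonal (fun k => (R k : ℂ))
    - Kᴴ * Matrix.diagonal (fun i => (e i : ℂ)) * K with hW
  have hWh : W.IsHermitian :=
    (Matrix.isHermitian_diagonal_of_self_adjoint _ (funext fun i => Complex.conj_ofReal (R i))).sub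
      (Matrix.isHermitian_conjTranspose_mul_mul K
        (Matrix.isHermitian_diagonal_of_self_adjoint _
          (funext fun i => Complex.conj_ofReal (e i))))
  obtain ⟨U, hU, hU', hUe⟩ := spectral_decomp hWh
  set l := hWh.eigenvalues with hl
  -- eigenvalues are positive
  have hlpos : ∀ m, 0 < l m := by
    intro m
    have hdiag : (Uᴴ * W * U) m m = (l m : ℂ) := by
      conv_lhs => rw [hUe]
      rw [show Uᴴ * (U * Matrix.diagonal (fun i => (l i : ℂ)) * Uᴴ) * U
        = (Uᴴ * U) * Matrix.diagonal (fun i => (l i : ℂ)) * (Uᴴ * U) by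
          simp only [Matrix.mul_assoc], hU']
      simp
    have hval : l m = (∑ k, R k * Complex.normSq (U k m))
        - ∑ i, e i * Complex.normSq ((K * U) i m) := by
      have h2 := congrArg Complex.re hdiag
      rw [Complex.ofReal_re] at h2
      rw [← h2, hW, Matrix.mul_sub, Matrix.sub_mul, Matrix.sub_apply, Complex.sub_re,
        show Uᴴ * (Kᴴ * Matrix.diagonal (fun i => (e i : ℂ)) * K) * U
          = (K * U)ᴴ * Matrix.diagonal (fun i => (e i : ℂ)) * (K * U) by
          simp only [Matrix.conjTranspose_mul, Matrix.mul_assoc]]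
      rw [congr_diag_re, congr_diag_re]
    have hnorm : ∑ k, Complex.normSq (U k m) = 1 := by
      have h2 := congrArg Complex.re (congrFun (congrFun hU' m) m)
      simpa [Matrix.mul_apply, Complex.re_sum, ← Complex.normSq_eq_conj_mul_self] using h2
    have hq := block_quad K hK (fun k => U k m)
    have : Nonempty ι := ⟨m⟩
    obtain ⟨i₀, hi₀⟩ := Finite.exists_max e
    obtain ⟨k₀, hk₀⟩ := Finite.exists_min R
    have a1 : ∑ i, e i * Complex.normSq ((K * U) i m) ≤ e i₀ := by
      calc ∑ i, e i * Complex.normSq ((K * U) i m)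
          ≤ ∑ i, e i₀ * Complex.normSq ((K *ᵥ fun k => U k m) i) :=
            Finset.sum_le_sum fun i _ => by
              rw [show (K * U) i m = (K *ᵥ fun k => U k m) i from rfl]
              exact mul_le_mul_of_nonneg_right (hi₀ i) (Complex.normSq_nonneg _)
        _ ≤ e i₀ := by
            rw [← Finset.mul_sum]
            exact mul_le_of_le_one_right (he i₀) (hnorm ▸ hq)
    have a2 : R k₀ ≤ ∑ k, R k * Complex.normSq (U k m) := by
      calc R k₀ = ∑ k, R k₀ * Complex.normSq (U k m) := by rw [← Finset.mul_sum, hnorm, mul_one]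
        _ ≤ _ := Finset.sum_le_sum fun k _ =>
            mul_le_mul_of_nonneg_right (hk₀ k) (Complex.normSq_nonneg _)
    linarith [hRe i₀ k₀]
  have hdet : W.det = ((∏ m, l m : ℝ) : ℂ) := by
    rw [hWh.det_eq_prod_eigenvalues]
    push_cast
    rfl
  rw [hdet, Complex.ofReal_re, Real.log_prod fun m _ => (hlpos m).ne']
  refine ⟨Finset.prod_pos fun m _ => hlpos m, ?_⟩
  set dl : ι → ℝ := fun k => 1 - ∑ i, nsqMat K i k with hdl
  let f : ℝ → ℝ := fun t => (∑ m, Real.log (t + l m))
    - ((∑ k, ∑ i, nsqMat K i k * Real.log (t + (R k - e i))) + ∑ k, dl k * Real.log (t + R k))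
  have hderiv : ∀ t : ℝ, 0 ≤ t → HasDerivAt f ((∑ m, 1 / (t + l m))
      - ((∑ k, ∑ i, nsqMat K i k * (1 / (t + (R k - e i)))) + ∑ k, dl k * (1 / (t + R k)))) t := by
    intro t ht
    refine (HasDerivAt.fun_sum fun m _ => ?_).sub
      ((HasDerivAt.fun_sum fun k _ => HasDerivAt.fun_sum fun i _ => ?_).add
        (HasDerivAt.fun_sum fun k _ => ?_))
    · exact ((hasDerivAt_id' t).add_const _).log (by linarith [hlpos m])
    · exact (((hasDerivAt_id' t).add_const _).log (by linarith [hRe i k])).const_mul _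
    · exact (((hasDerivAt_id' t).add_const _).log (by linarith [hR k])).const_mul _
  have hle : ∀ t : ℝ, 0 ≤ t → (∑ m, 1 / (t + l m))
      ≤ (∑ k, ∑ i, nsqMat K i k * (1 / (t + (R k - e i)))) + ∑ k, dl k * (1 / (t + R k)) := by
    intro t ht
    have hshift : Matrix.diagonal (fun k => ((t + R k : ℝ) : ℂ))
        - Kᴴ * Matrix.diagonal (fun i => (e i : ℂ)) * K
        = U * Matrix.diagonal (fun m => ((t + l m : ℝ) : ℂ)) * Uᴴ := by
      have a1 : ∀ g : ι → ℝ, Matrix.diagonal (fun k => ((t + g k : ℝ) : ℂ))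
          = (t : ℂ) • (1 : Matrix ι ι ℂ) + Matrix.diagonal (fun k => (g k : ℂ)) := by
        intro g
        ext i j
        by_cases hij : i = j
        · subst hij; simp
        · simp [hij]
      rw [a1 R, a1 l, Matrix.mul_add, Matrix.add_mul, ← hUe, hW]
      simp [hU, add_sub_assoc]
    have h := resolvent_trace_le K
      (U * Matrix.diagonal (fun m => ((1 / (t + l m) : ℝ) : ℂ)) * Uᴴ) (fun k => t + R k) e hK
      (fun k => by linarith [hR k]) (fun i k => by linarith [hRe i k]) (isHermitian_conj_diag U _)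
      (by
        rw [hshift, show U * Matrix.diagonal (fun m => ((t + l m : ℝ) : ℂ)) * Uᴴ *
            (U * Matrix.diagonal (fun m => ((1 / (t + l m) : ℝ) : ℂ)) * Uᴴ)
          = U * (Matrix.diagonal (fun m => ((t + l m : ℝ) : ℂ)) * (Uᴴ * U) *
            Matrix.diagonal (fun m => ((1 / (t + l m) : ℝ) : ℂ))) * Uᴴ by
            simp only [Matrix.mul_assoc], hU', Matrix.mul_one, Matrix.diagonal_mul_diagonal]
        have : (fun m => ((t + l m : ℝ) : ℂ) * ((1 / (t + l m) : ℝ) : ℂ)) = fun _ => (1 : ℂ) := by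
          funext m
          rw [← Complex.ofReal_mul, mul_one_div_cancel (by linarith [hlpos m]), Complex.ofReal_one]
        rw [this, Matrix.diagonal_one, Matrix.mul_one, hU])
    rw [Matrix.trace_mul_comm, ← Matrix.mul_assoc, hU', Matrix.one_mul, Matrix.trace_diagonal,
      Complex.re_sum] at h
    simp only [Complex.ofReal_re] at h
    refine h.trans_eq ?_
    simp only [hdl, mul_one_div, add_sub_assoc]
  have hanti : AntitoneOn f (Set.Ici 0) := by
    refine antitoneOn_of_hasDerivWithinAt_nonpos (convex_Ici 0)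
      (f' := fun t => (∑ m, 1 / (t + l m))
        - ((∑ k, ∑ i, nsqMat K i k * (1 / (t + (R k - e i)))) + ∑ k, dl k * (1 / (t + R k))))
      (fun t ht => (hderiv t ht).continuousAt.continuousWithinAt)
      (fun t ht => (hderiv t (interior_subset ht)).hasDerivWithinAt) ?_
    intro t ht
    linarith [hle t (interior_subset ht)]
  have hlim : Tendsto f atTop (𝓝 0) := by
    have h1 : Tendsto (fun t => (∑ m, (Real.log (t + l m) - Real.log t))
        - ((∑ k, ∑ i, nsqMat K i k * (Real.log (t + (R k - e i)) - Real.log t))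
          + ∑ k, dl k * (Real.log (t + R k) - Real.log t))) atTop
        (𝓝 ((∑ _m : ι, (0 : ℝ))
          - ((∑ k, ∑ i, nsqMat K i k * 0) + ∑ k, dl k * 0))) :=
      (tendsto_finsetSum _ fun m _ => tendsto_log_shift _).sub
        ((tendsto_finsetSum _ fun k _ => tendsto_finsetSum _ fun i _ =>
          (tendsto_log_shift _).const_mul _).add
          (tendsto_finsetSum _ fun k _ => (tendsto_log_shift _).const_mul _))
    simp only [mul_zero, Finset.sum_const_zero, add_zero, sub_zero] at h1
    refine h1.congr fun t => ?_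
    simp only [f, hdl, mul_sub, Finset.sum_sub_distrib, sub_mul, one_mul, Finset.sum_mul]
    ring
  have h0 : 0 ≤ f 0 := by
    refine le_of_tendsto hlim ?_
    filter_upwards [eventually_ge_atTop (0 : ℝ)] with t ht
    exact hanti Set.self_mem_Ici ht ht
  simp only [f, zero_add] at h0
  linarith

theorem logDet_block_ge (P R u v : ι → ℝ) (c : ℝ) (K : Matrix ι ι ℂ)
    (hP : ∀ i, 0 < P i) (hR : ∀ j, 0 < R j) (hPR : ∀ i j, c ^ 2 < P i * R j)
    (hK : (Matrix.fromBlocks 1 K Kᴴ 1).PosSemidef)
    (huv : ∀ i j, u i + v j ≤ Real.log (P i * R j - c ^ 2)) :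
    (∑ i, u i) + ∑ j, v j ≤
      Real.log (Matrix.fromBlocks (Matrix.diagonal fun i => (P i : ℂ)) ((c : ℂ) • K)
        ((c : ℂ) • Kᴴ) (Matrix.diagonal fun j => (R j : ℂ))).det.re := by
  set e : ι → ℝ := fun i => c ^ 2 / P i with he
  have hRe : ∀ i k, e i < R k := fun i k => by
    rw [he, div_lt_iff₀ (hP i)]
    linarith [hPR i k]
  let _ : Invertible (fun i => (P i : ℂ)) :=
    { invOf := fun i => (P i : ℂ)⁻¹
      invOf_mul_self := funext fun i => inv_mul_cancel₀ (Complex.ofReal_ne_zero.mpr (hP i).ne')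
      mul_invOf_self := funext fun i => mul_inv_cancel₀ (Complex.ofReal_ne_zero.mpr (hP i).ne') }
  let _ := Matrix.diagonalInvertible (fun i => (P i : ℂ))
  have hinv : ⅟(Matrix.diagonal fun i => (P i : ℂ))
      = Matrix.diagonal (fun i => (P i : ℂ)⁻¹) := rfl
  have hS : ((c : ℂ) • Kᴴ) * Matrix.diagonal (fun i => (P i : ℂ)⁻¹) * ((c : ℂ) • K)
      = Kᴴ * Matrix.diagonal (fun i => (e i : ℂ)) * K := by
    have hd : Matrix.diagonal (fun i => (e i : ℂ))
        = ((c : ℂ) * (c : ℂ)) • Matrix.diagonal (fun i => (P i : ℂ)⁻¹) := by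
      rw [← Matrix.diagonal_smul]
      congr 1
      funext i
      simp only [he, Pi.smul_apply, smul_eq_mul]
      push_cast
      ring
    rw [hd]
    simp only [Matrix.smul_mul, Matrix.mul_smul, smul_smul]
  obtain ⟨hpos, hmain⟩ := logDet_schur_ge K R e hK hR
    (fun i => div_nonneg (sq_nonneg c) (hP i).le) hRe
  rw [Matrix.det_fromBlocks₁₁, hinv, hS, Matrix.det_diagonal, ← Complex.ofReal_prod,
    Complex.re_ofReal_mul, Real.log_mul (Finset.prod_pos fun i _ => hP i).ne' hpos.ne',
    Real.log_prod fun i _ => (hP i).ne']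
  refine le_trans ?_ (add_le_add le_rfl hmain)
  set M := nsqMat K with hM
  set dr : ι → ℝ := fun i => 1 - ∑ j, M i j with hdr
  set dk : ι → ℝ := fun j => 1 - ∑ i, M i j with hdk
  have hdr0 : ∀ i, 0 ≤ dr i := fun i => sub_nonneg.mpr (block_row K hK i)
  have hdk0 : ∀ j, 0 ≤ dk j := fun j => sub_nonneg.mpr (block_col K hK j)
  have hD : ∑ i, dr i = ∑ j, dk j := by
    simp only [hdr, hdk, Finset.sum_sub_distrib]
    rw [Finset.sum_comm]
  have hsplit : ∀ (a b : ι → ℝ), (∑ i, a i) + ∑ j, b j
      = (∑ j, ∑ i, M i j * (a i + b j)) + ((∑ i, dr i * a i) + ∑ j, dk j * b j) := by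
    intro a b
    simp only [hdr, hdk, sub_mul, one_mul, mul_add, Finset.sum_sub_distrib,
      Finset.sum_add_distrib, Finset.sum_mul]
    rw [Finset.sum_comm (f := fun j i => M i j * a i)]
    ring
  have hpair : ∑ j, ∑ i, M i j * (u i + v j)
      ≤ ∑ j, ∑ i, M i j * (Real.log (P i) + Real.log (R j - e i)) := by
    refine Finset.sum_le_sum fun j _ => Finset.sum_le_sum fun i _ =>
      mul_le_mul_of_nonneg_left ((huv i j).trans_eq ?_) (Complex.normSq_nonneg _)
    rw [← Real.log_mul (hP i).ne' (sub_pos.mpr (hRe i j)).ne', he]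
    congr 1
    field_simp [(hP i).ne']
  have hdef : (∑ i, dr i * u i) + ∑ j, dk j * v j
      ≤ (∑ i, dr i * Real.log (P i)) + ∑ j, dk j * Real.log (R j) := by
    rcases eq_or_lt_of_le (Finset.sum_nonneg fun i (_ : i ∈ Finset.univ) => hdr0 i) with h0 | h0
    · have z1 := (Finset.sum_eq_zero_iff_of_nonneg fun i _ => hdr0 i).mp h0.symm
      have z2 := (Finset.sum_eq_zero_iff_of_nonneg fun j _ => hdk0 j).mp (hD ▸ h0.symm)
      have y1 : ∀ i, dr i = 0 := fun i => z1 i (Finset.mem_univ i)
      have y2 : ∀ j, dk j = 0 := fun j => z2 j (Finset.mem_univ j)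
      simp [y1, y2]
    · have hprod : ∀ a b : ι → ℝ, ∑ i, ∑ j, dr i * dk j * (a i + b j)
          = (∑ i, dr i) * ((∑ i, dr i * a i) + ∑ j, dk j * b j) := by
        intro a b
        rw [mul_add]
        conv_rhs => arg 1; rw [hD, mul_comm, Finset.sum_mul_sum]
        rw [Finset.sum_mul_sum, ← Finset.sum_add_distrib]
        refine Finset.sum_congr rfl fun i _ => ?_
        rw [← Finset.sum_add_distrib]
        exact Finset.sum_congr rfl fun j _ => by ring
      refine le_of_mul_le_mul_left ?_ h0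
      rw [← hprod, ← hprod]
      refine Finset.sum_le_sum fun i _ => Finset.sum_le_sum fun j _ =>
        mul_le_mul_of_nonneg_left ((huv i j).trans ?_) (mul_nonneg (hdr0 i) (hdk0 j))
      rw [← Real.log_mul (hP i).ne' (hR j).ne']
      exact Real.log_le_log (sub_pos.mpr (hPR i j)) (sub_le_self _ (sq_nonneg c))
  have hP' : ∑ i, Real.log (P i)
      = (∑ j, ∑ i, M i j * Real.log (P i)) + ∑ i, dr i * Real.log (P i) := by
    simp only [hdr, sub_mul, one_mul, Finset.sum_sub_distrib, Finset.sum_mul]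
    rw [Finset.sum_comm (f := fun j i => M i j * Real.log (P i))]
    ring
  rw [hsplit u v, hP']
  simp only [mul_add, Finset.sum_add_distrib] at hpair ⊢
  linarith

end VAgent.P358
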