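import Vale.Agent.P358.Scalar
import Vale.Agent.P358.DetBound
import Vale.Agent.P358.Spectral
import Vale.Agent.P358.CoreBlock
import Vale.Agent.P358.CoreEig

/-!
# P358: the determinant inequality at a fixed shift
-/

namespace VAgent.P358

open Matrix
open scoped ComplexOrder

variable {ι : Type*} [Fintype ι] [DecidableEq ι]

theorem logDet_diag {M : Matrix ι ι ℂ} (hM : M.PosSemidef) {s : ℝ} (hs : 0 < s) {c : ℝ}
    (hc : 0 ≤ c) :
    Real.log ((s : ℂ) • (1 : Matrix ι ι ℂ) + (c : ℂ) • M).det.re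
      = ∑ k, Real.log (s + c * hM.1.eigenvalues k) := by
  have h := hM.smul (Complex.zero_le_real.mpr hc)
  rw [logDet_eq_sum h hs]
  exact sumEig_smul hM.1 c h.1 fun x => Real.log (s + x)

theorem shift_posDef {M : Matrix ι ι ℂ} (hM : M.PosSemidef) {s c : ℝ} (hs : 0 < s) (hc : 0 ≤ c) :
    ((s : ℂ) • (1 : Matrix ι ι ℂ) + (c : ℂ) • M).PosDef :=
  (Matrix.PosDef.one.smul (show (0:ℂ) < (s : ℂ) from Complex.zero_lt_real.mpr hs)).add_posSemidef
    (hM.smul (Complex.zero_le_real.mpr hc))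

/-- Determinant of `T diag(y) Tᴴ` on the logarithmic scale. -/
theorem logDet_congr {T M : Matrix ι ι ℂ} {y : ι → ℝ} (hy : ∀ i, 0 < y i) (hT : IsUnit T.det)
    (h : T * Matrix.diagonal (fun i => (y i : ℂ)) * Tᴴ = M) :
    Real.log M.det.re = Real.log (Complex.normSq T.det) + ∑ i, Real.log (y i) := by
  have e : M.det = ((Complex.normSq T.det * ∏ i, y i : ℝ) : ℂ) := by
    rw [← h, Matrix.det_mul, Matrix.det_mul, Matrix.det_diagonal, Matrix.det_conjTranspose,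
      Complex.ofReal_mul, Complex.normSq_eq_conj_mul_self, Complex.ofReal_prod, Complex.star_def]
    ring
  rw [e, Complex.ofReal_re, Real.log_mul ?_ ?_, Real.log_prod fun i _ => (hy i).ne']
  · exact (Complex.normSq_pos.mpr hT.ne_zero).ne'
  · exact (Finset.prod_pos fun i _ => hy i).ne'

/-- The parameters attached to an input. -/
noncomputable def parOf (γ ν : ℝ) (ω : Matrix (Fin 2 × ι) (Fin 2 × ι) ℂ) : Par :=
  ⟨γ * ν, γ * (1 - ν), 1 - γ, (blk ω 0 0).trace.re, (blk ω 1 1).trace.re⟩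

theorem parOf_ok [Nonempty ι] {γ ν : ℝ} (hγ : γ ∈ Set.Ico (0:ℝ) 1) (hν : ν ∈ Set.Icc (0:ℝ) 1)
    {ω : Matrix (Fin 2 × ι) (Fin 2 × ι) ℂ} (hω : ω.PosDef) : (parOf γ ν ω).Ok := by
  obtain ⟨hγ0, hγ1⟩ := hγ
  obtain ⟨hν0, hν1⟩ := hν
  have ht : ∀ u : Fin 2, 0 < (blk ω u u).trace.re := by
    intro u
    have h : (blk ω u u).PosDef := hω.submatrix (e := fun i => (u, i)) (fun i j hij => by simpa using hij)
    exact (Complex.pos_iff.mp h.trace_pos).1
  refine ⟨mul_nonneg hγ0 hν0, ?_, mul_nonneg hγ0 (by linarith), ?_, by show 0 ≤ 1 - γ; linarith,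
    ?_, ht 0, ht 1⟩
  · show γ * ν < 1
    nlinarith
  · show γ * (1 - ν) < 1
    nlinarith
  · show 1 - γ ≤ (1 - γ * ν) * (1 - γ * (1 - ν))
    nlinarith [mul_nonneg (mul_nonneg hγ0 hγ0) (mul_nonneg hν0 (sub_nonneg.mpr hν1))]

theorem per_shift [Nonempty ι] {γ ν : ℝ} (hγ : γ ∈ Set.Ico (0:ℝ) 1) (hν : ν ∈ Set.Icc (0:ℝ) 1)
    {ω : Matrix (Fin 2 × ι) (Fin 2 × ι) ℂ} (hω : ω.PosDef) {s : ℝ} (hs : 0 < s)
    (hA : (blk ω 0 0).IsHermitian) (hQ : (blk ω 1 1).IsHermitian)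
    (hO : (gadcLeft γ ν ω).IsHermitian)
    {T1 T2 : Matrix ι ι ℂ} {y z : ι → ℝ} (hy : ∀ i, 0 < y i) (hz : ∀ i, 0 < z i)
    (hT1 : IsUnit T1.det) (hT2 : IsUnit T2.det)
    (h1A : T1 * T1ᴴ = blk ω 0 0)
    (h1 : T1 * Matrix.diagonal (fun i => (y i : ℂ)) * T1ᴴ
      = (s : ℂ) • (1 : Matrix ι ι ℂ) + (((parOf γ ν ω).b : ℝ) : ℂ) • blk ω 1 1)
    (h2A : T2 * T2ᴴ = blk ω 1 1)
    (h2 : T2 * Matrix.diagonal (fun i => (z i : ℂ)) * T2ᴴ
      = (s : ℂ) • (1 : Matrix ι ι ℂ) + (((parOf γ ν ω).a : ℝ) : ℂ) • blk ω 0 0) :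
    (∑ k, Real.log (s + (parOf γ ν ω).b * hQ.eigenvalues k))
      + (∑ k, Real.log (s + (parOf γ ν ω).a * hA.eigenvalues k))
      + (∑ i, (parOf γ ν ω).phi (y i)) + (∑ j, (parOf γ ν ω).swap.phi (z j))
    ≤ ∑ x, Real.log (s + hO.eigenvalues x) := by
  set P := parOf γ ν ω with hP
  have ok : P.Ok := parOf_ok hγ hν hω
  set A := blk ω 0 0 with hAd
  set Q := blk ω 1 1 with hQd
  set X := blk ω 0 1 with hXd
  have hXH : blk ω 1 0 = Xᴴ := (blk_conjTranspose hω.1 0 1).symm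
  set c := Real.sqrt (1 - γ) with hc
  have hc2 : c ^ 2 = P.c2 := Real.sq_sqrt (by linarith [hγ.2])
  set K := T1⁻¹ * X * (T2⁻¹)ᴴ with hK
  set D : Matrix (ι ⊕ ι) (ι ⊕ ι) ℂ := Matrix.fromBlocks T1 0 0 T2 with hD
  have hK1 : T1 * K * T2ᴴ = X := by
    rw [hK]
    calc T1 * (T1⁻¹ * X * (T2⁻¹)ᴴ) * T2ᴴ = (T1 * T1⁻¹) * X * ((T2⁻¹)ᴴ * T2ᴴ) := by
          simp only [Matrix.mul_assoc]
      _ = X := by
          rw [← Matrix.conjTranspose_mul, Matrix.mul_nonsing_inv _ hT1, Matrix.mul_nonsing_inv _ hT2]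
          simp
  have hK2 : T2 * Kᴴ * T1ᴴ = Xᴴ := by
    rw [← hK1]
    simp [Matrix.conjTranspose_mul, Matrix.mul_assoc]
  have hDω : D * Matrix.fromBlocks 1 K Kᴴ 1 * Dᴴ = Matrix.fromBlocks A X Xᴴ Q := by
    simp [hD, Matrix.fromBlocks_conjTranspose, Matrix.fromBlocks_multiply, h1A, h2A, hK1, hK2]
  have hDdet : IsUnit D.det := by
    rw [hD, Matrix.det_fromBlocks_zero₂₁]
    exact hT1.mul hT2
  have hKp : (Matrix.fromBlocks 1 K Kᴴ 1).PosSemidef := by
    have hB : (Matrix.reindex (qEquiv ι) (qEquiv ι) ω).PosSemidef := hω.posSemidef.submatrix _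
    rw [eq_fromBlocks, hXH, ← hAd, ← hQd, ← hXd, ← hDω] at hB
    have h := hB.mul_mul_conjTranspose_same D⁻¹
    have e : D⁻¹ * (D * Matrix.fromBlocks 1 K Kᴴ 1 * Dᴴ) * (D⁻¹)ᴴ = Matrix.fromBlocks 1 K Kᴴ 1 := by
      rw [Matrix.conjTranspose_nonsing_inv]
      calc D⁻¹ * (D * Matrix.fromBlocks 1 K Kᴴ 1 * Dᴴ) * (Dᴴ)⁻¹
          = (D⁻¹ * D) * Matrix.fromBlocks 1 K Kᴴ 1 * (Dᴴ * (Dᴴ)⁻¹) := by
            simp only [Matrix.mul_assoc]
        _ = Matrix.fromBlocks 1 K Kᴴ 1 := by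
            rw [Matrix.nonsing_inv_mul _ hDdet, Matrix.mul_nonsing_inv _ (by
              rw [Matrix.det_conjTranspose]; exact hDdet.star)]
            simp
    rwa [e] at h
  set al := 1 - P.a with hal
  set be := 1 - P.b with hbe
  have hbe' : be = 1 - γ + γ * ν := by rw [hbe, hP, parOf]; ring
  set Blk := Matrix.fromBlocks (Matrix.diagonal fun i => ((y i + al : ℝ) : ℂ)) ((c : ℂ) • K)
      ((c : ℂ) • Kᴴ) (Matrix.diagonal fun j => ((z j + be : ℝ) : ℂ)) with hBlk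
  have e1 : T1 * Matrix.diagonal (fun i => ((y i + al : ℝ) : ℂ)) * T1ᴴ
      = (s : ℂ) • (1 : Matrix ι ι ℂ) + (P.b : ℂ) • Q + (al : ℂ) • A := by
    have : Matrix.diagonal (fun i => ((y i + al : ℝ) : ℂ))
        = Matrix.diagonal (fun i => (y i : ℂ)) + Matrix.diagonal (fun _ => (al : ℂ)) := by
      rw [Matrix.diagonal_add]
      congr 1
      funext i
      simp
    rw [this, Matrix.mul_add, Matrix.add_mul, h1, ← h1A,
      ← Matrix.smul_one_eq_diagonal]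
    simp [-Complex.coe_smul]
  have e2 : T2 * Matrix.diagonal (fun i => ((z i + be : ℝ) : ℂ)) * T2ᴴ
      = (s : ℂ) • (1 : Matrix ι ι ℂ) + (P.a : ℂ) • A + (be : ℂ) • Q := by
    have : Matrix.diagonal (fun i => ((z i + be : ℝ) : ℂ))
        = Matrix.diagonal (fun i => (z i : ℂ)) + Matrix.diagonal (fun _ => (be : ℂ)) := by
      rw [Matrix.diagonal_add]
      congr 1
      funext i
      simp
    rw [this, Matrix.mul_add, Matrix.add_mul, h2, ← h2A,
      ← Matrix.smul_one_eq_diagonal]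
    simp [-Complex.coe_smul]
  have hfac : Matrix.reindex (qEquiv ι) (qEquiv ι)
      ((s : ℂ) • (1 : Matrix (Fin 2 × ι) (Fin 2 × ι) ℂ) + gadcLeft γ ν ω) = D * Blk * Dᴴ := by
    have hr : Matrix.reindex (qEquiv ι) (qEquiv ι)
        ((s : ℂ) • (1 : Matrix (Fin 2 × ι) (Fin 2 × ι) ℂ) + gadcLeft γ ν ω)
        = (s : ℂ) • (1 : Matrix (ι ⊕ ι) (ι ⊕ ι) ℂ)
          + Matrix.reindex (qEquiv ι) (qEquiv ι) (gadcLeft γ ν ω) := by
      ext i j
      simp [Matrix.one_apply]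
    rw [hr, gadcLeft_blocks, hXH, ← Matrix.fromBlocks_one, Matrix.fromBlocks_smul,
      Matrix.fromBlocks_add, hD, hBlk]
    simp only [Matrix.fromBlocks_conjTranspose, Matrix.conjTranspose_zero, Matrix.fromBlocks_multiply,
      Matrix.zero_mul, Matrix.mul_zero, add_zero, zero_add, smul_zero, e1, e2]
    rw [Matrix.fromBlocks_inj]
    refine ⟨?_, ?_, ?_, ?_⟩
    · rw [← hAd, ← hQd, add_assoc]
      congr 1
      rw [add_comm]
      rfl
    · rw [Matrix.mul_smul, Matrix.smul_mul, hK1]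
    · rw [Matrix.mul_smul, Matrix.smul_mul, hK2]
    · rw [← hAd, ← hQd, add_assoc, hbe']
      rfl
  have hout : (gadcLeft γ ν ω).PosSemidef :=
    gadcLeft_posSemidef ⟨hγ.1, hγ.2.le⟩ hν hω.posSemidef
  have hdet : ((s : ℂ) • (1 : Matrix (Fin 2 × ι) (Fin 2 × ι) ℂ) + gadcLeft γ ν ω).det
      = (Complex.normSq T1.det * Complex.normSq T2.det : ℝ) * Blk.det := by
    rw [← Matrix.det_reindex_self (qEquiv ι), hfac, Matrix.det_mul, Matrix.det_mul,
      Matrix.det_conjTranspose, hD, Matrix.det_fromBlocks_zero₂₁, Complex.ofReal_mul,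
      Complex.normSq_eq_conj_mul_self, Complex.normSq_eq_conj_mul_self, star_mul']
    simp only [Complex.star_def]
    ring
  have hpd : 0 < ((s : ℂ) • (1 : Matrix (Fin 2 × ι) (Fin 2 × ι) ℂ) + gadcLeft γ ν ω).det :=
    ((Matrix.PosDef.one.smul (show (0:ℂ) < (s : ℂ) from Complex.zero_lt_real.mpr hs)).add_posSemidef
      hout).det_pos
  have hne : Blk.det.re ≠ 0 := by
    have h0 := (Complex.pos_iff.mp hpd).1
    rw [hdet, Complex.re_ofReal_mul] at h0
    exact fun hz0 => by rw [hz0, mul_zero] at h0; exact lt_irrefl _ h0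
  have hn1 : Complex.normSq T1.det ≠ 0 := (Complex.normSq_pos.mpr hT1.ne_zero).ne'
  have hn2 : Complex.normSq T2.det ≠ 0 := (Complex.normSq_pos.mpr hT2.ne_zero).ne'
  have L1 : Real.log (Complex.normSq T1.det) + ∑ i, Real.log (y i)
      = ∑ k, Real.log (s + P.b * hQ.eigenvalues k) := by
    rw [← logDet_congr hy hT1 h1]
    exact logDet_diag (hω.posSemidef.submatrix fun i => (1, i)) hs ok.b0
  have L2 : Real.log (Complex.normSq T2.det) + ∑ i, Real.log (z i)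
      = ∑ k, Real.log (s + P.a * hA.eigenvalues k) := by
    rw [← logDet_congr hz hT2 h2]
    exact logDet_diag (hω.posSemidef.submatrix fun i => (0, i)) hs ok.a0
  have hb := logDet_block_ge (fun i => y i + al) (fun j => z j + be)
    (fun i => Real.log (y i) + P.phi (y i)) (fun j => Real.log (z j) + P.swap.phi (z j)) c K
    (fun i => by linarith [hy i, ok.a1]) (fun j => by linarith [hz j, ok.b1])
    (fun i j => by
      have hpos : 0 < y i * z j := mul_pos (hy i) (hz j)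
      have := ok.cle
      rw [hc2]
      nlinarith [hy i, hz j, ok.a1, ok.b1, mul_pos (hy i) (sub_pos.mpr ok.b1),
        mul_pos (hz j) (sub_pos.mpr ok.a1)])
    hKp
    (fun i j => by
      have := Par.separable ok (hy i) (hz j)
      rw [Par.F] at this
      simpa [hc2] using this)
  rw [← logDet_eq_sum hout hs, hdet, Complex.re_ofReal_mul, Real.log_mul (mul_ne_zero hn1 hn2) hne,
    Real.log_mul hn1 hn2, ← L1, ← L2]
  simp only [Finset.sum_add_distrib] at hb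
  linarith [hb]

end VAgent.P358
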