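import Mathlib

/-!
# P358: definitions for the generalised amplitude damping channel
-/

namespace VAgent.P358

open Matrix
open scoped ComplexOrder

/-- Matrix element `(x,y)` of the channel applied to the matrix unit `|u><v|`. -/
noncomputable def kern (γ ν : ℝ) (x y u v : Fin 2) : ℂ :=
  if u = v then
    (if x = y then
      (if u = 0 then (if x = 0 then ((1 - γ * ν : ℝ) : ℂ) else ((γ * ν : ℝ) : ℂ))
       else (if x = 0 then ((γ * (1 - ν) : ℝ) : ℂ) else ((1 - γ + γ * ν : ℝ) : ℂ)))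
     else 0)
  else (if x = u ∧ y = v then ((Real.sqrt (1 - γ) : ℝ) : ℂ) else 0)

/-- The channel on one qubit. -/
noncomputable def gadc (γ ν : ℝ) (ρ : Matrix (Fin 2) (Fin 2) ℂ) : Matrix (Fin 2) (Fin 2) ℂ :=
  fun x y => ∑ u, ∑ v, ρ u v * kern γ ν x y u v

/-- The `n`-fold tensor power of the channel, on `n`-qubit matrices. -/
noncomputable def gadcPow (γ ν : ℝ) (n : ℕ) (ρ : Matrix (Fin n → Fin 2) (Fin n → Fin 2) ℂ) :
    Matrix (Fin n → Fin 2) (Fin n → Fin 2) ℂ :=
  fun x y => ∑ u, ∑ v, ρ u v * ∏ i, kern γ ν (x i) (y i) (u i) (v i)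

/-- A density operator: positive semidefinite with trace one. -/
def IsState {m : Type*} [Fintype m] [DecidableEq m] (ρ : Matrix m m ℂ) : Prop :=
  ρ.PosSemidef ∧ ρ.trace = 1

/-- Entropy in nats: sum of `-l log l` over the eigenvalues (`0` if not Hermitian). -/
noncomputable def nent {m : Type*} [Fintype m] [DecidableEq m] (M : Matrix m m ℂ) : ℝ :=
  if h : M.IsHermitian then ∑ k, Real.negMulLog (h.eigenvalues k) else 0

/-- Von Neumann entropy in bits. -/
noncomputable def vnEntropy {m : Type*} [Fintype m] [DecidableEq m] (M : Matrix m m ℂ) : ℝ :=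
  nent M / Real.log 2

/-- The Holevo quantities of all finite ensembles of input states of `n` uses. -/
noncomputable def holevoSet (γ ν : ℝ) (n : ℕ) : Set ℝ :=
  {x | ∃ (k : ℕ) (w : Fin k → ℝ) (ρ : Fin k → Matrix (Fin n → Fin 2) (Fin n → Fin 2) ℂ),
    (∀ j, 0 ≤ w j) ∧ ∑ j, w j = 1 ∧ (∀ j, IsState (ρ j)) ∧
    x = vnEntropy (∑ j, (w j : ℂ) • gadcPow γ ν n (ρ j))
        - ∑ j, w j * vnEntropy (gadcPow γ ν n (ρ j))}

/-- Holevo capacity of `n` uses. -/
noncomputable def holevo (γ ν : ℝ) (n : ℕ) : ℝ := sSup (holevoSet γ ν n)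

/-- Unassisted classical capacity: the supremum over `n ≥ 1` of `holevo n / n`. -/
noncomputable def capacity (γ ν : ℝ) : ℝ :=
  sSup {x | ∃ n : ℕ, 1 ≤ n ∧ x = holevo γ ν n / n}

/-- Excited population of the output. -/
def outPop (γ ν q : ℝ) : ℝ := (1 - γ) * q + γ * ν

/-- Least output entropy (nats) at input population `q`: that of a pure input. -/
noncomputable def gmin (γ ν q : ℝ) : ℝ :=
  Real.binEntropy
    ((1 - Real.sqrt ((1 - 2 * outPop γ ν q) ^ 2 + 4 * (1 - γ) * (q * (1 - q)))) / 2)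

/-- The scalar formula, in bits. -/
noncomputable def chiFormula (γ ν : ℝ) : ℝ :=
  sSup ((fun q => (Real.binEntropy (outPop γ ν q) - gmin γ ν q) / Real.log 2) '' Set.Icc 0 1)

/-- Scalar output entropy of the unnormalised pure input with populations `p`, `q`. -/
noncomputable def qub (γ ν p q : ℝ) : ℝ :=
  let X := (1 - γ * ν) * p + γ * (1 - ν) * q
  let Y := γ * ν * p + (1 - γ + γ * ν) * q
  let d := Real.sqrt ((X - Y) ^ 2 + 4 * (1 - γ) * (p * q))
  Real.negMulLog ((X + Y + d) / 2) + Real.negMulLog ((X + Y - d) / 2)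

/-- Diagonal or off-diagonal block of a matrix on qubit times `ι`. -/
def blk {ι : Type*} (ω : Matrix (Fin 2 × ι) (Fin 2 × ι) ℂ) (u v : Fin 2) : Matrix ι ι ℂ :=
  fun i j => ω (u, i) (v, j)

/-- The channel acting on the qubit factor. -/
noncomputable def gadcLeft {ι : Type*} (γ ν : ℝ) (ω : Matrix (Fin 2 × ι) (Fin 2 × ι) ℂ) :
    Matrix (Fin 2 × ι) (Fin 2 × ι) ℂ :=
  fun x y => ∑ u, ∑ v, ω (u, x.2) (v, y.2) * kern γ ν x.1 y.1 u v

/-- Parameters of the scalar separable bound: `c2` is the squared coherence factor,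
`p, q` are the populations at which the bound is tight. -/
structure Par where
  a : ℝ
  b : ℝ
  c2 : ℝ
  p : ℝ
  q : ℝ

/-- Exchange the two levels. -/
def Par.swap (P : Par) : Par := ⟨P.b, P.a, P.c2, P.q, P.p⟩

/-- Admissible parameters. -/
structure Par.Ok (P : Par) : Prop where
  a0 : 0 ≤ P.a
  a1 : P.a < 1
  b0 : 0 ≤ P.b
  b1 : P.b < 1
  c0 : 0 ≤ P.c2
  cle : P.c2 ≤ (1 - P.a) * (1 - P.b)
  p0 : 0 < P.p
  q0 : 0 < P.q

/-- The clipped tightness line. -/
noncomputable def Par.kap (P : Par) (y : ℝ) : ℝ := max 0 ((P.p * y - P.b * P.q + P.a * P.p) / P.q)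

/-- Layer density of the first separable term. -/
noncomputable def Par.dens (P : Par) (y : ℝ) : ℝ :=
  1 / y - (P.kap y + (1 - P.b)) / ((y + (1 - P.a)) * (P.kap y + (1 - P.b)) - P.c2)

/-- The separable term: integral of the density above `y`. -/
noncomputable def Par.phi (P : Par) (y : ℝ) : ℝ := ∫ t in Set.Ioi y, P.dens t

/-- The two-variable function to be bounded below. -/
noncomputable def Par.F (P : Par) (y z : ℝ) : ℝ :=
  Real.log ((y + (1 - P.a)) * (z + (1 - P.b)) - P.c2)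

end VAgent.P358
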