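import Vale.Agent.P358.Core
import Vale.Agent.P358.Convexity
import Vale.Agent.P358.Main.Channel
import Vale.Agent.P358.Main.Entropy

/-!
# P358: additivity and the capacity formula
-/

namespace VAgent.P358

open Matrix
open scoped ComplexOrder

variable {γ ν : ℝ}

/-- Homogenised least output entropy. -/
noncomputable def ghom (γ ν T Q : ℝ) : ℝ := T * gmin γ ν (Q / T)

theorem div_mem_unit {T Q : ℝ} (hQ : 0 ≤ Q) (hQT : Q ≤ T) : Q / T ∈ Set.Icc (0:ℝ) 1 :=
  ⟨div_nonneg hQ (hQ.trans hQT), div_le_one_of_le₀ hQT (hQ.trans hQT)⟩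

theorem ghom_add_le (hγ : γ ∈ Set.Icc (0:ℝ) 1) (hν : ν ∈ Set.Icc (0:ℝ) 1) {T1 T2 Q1 Q2 : ℝ}
    (h1 : 0 ≤ Q1) (h1' : Q1 ≤ T1) (h2 : 0 ≤ Q2) (h2' : Q2 ≤ T2) :
    ghom γ ν (T1 + T2) (Q1 + Q2) ≤ ghom γ ν T1 Q1 + ghom γ ν T2 Q2 := by
  rcases (h1.trans h1').eq_or_lt with hT1 | hT1
  · obtain rfl : Q1 = 0 := le_antisymm (h1'.trans hT1.ge) h1
    simp [ghom, ← hT1]
  rcases (h2.trans h2').eq_or_lt with hT2 | hT2
  · obtain rfl : Q2 = 0 := le_antisymm (h2'.trans hT2.ge) h2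
    simp [ghom, ← hT2]
  have hT : 0 < T1 + T2 := by linarith
  have h := (gmin_convexOn hγ hν).2 (div_mem_unit h1 h1') (div_mem_unit h2 h2')
    (show 0 ≤ T1 / (T1 + T2) by positivity) (show 0 ≤ T2 / (T1 + T2) by positivity)
    (by field_simp)
  simp only [smul_eq_mul] at h
  rw [show T1 / (T1 + T2) * (Q1 / T1) + T2 / (T1 + T2) * (Q2 / T2) = (Q1 + Q2) / (T1 + T2) by
    field_simp] at h
  have h' := mul_le_mul_of_nonneg_left h hT.le
  rw [ghom, ghom, ghom]
  refine h'.trans (le_of_eq ?_)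
  field_simp

/-- The least output entropy of a state of `n` qubits is at least the sum of the one-qubit ones. -/
theorem nent_gadcPow_ge (hγ : γ ∈ Set.Icc (0:ℝ) 1) (hν : ν ∈ Set.Icc (0:ℝ) 1) :
    ∀ {n : ℕ} (ρ : Matrix (Fin n → Fin 2) (Fin n → Fin 2) ℂ), ρ.PosSemidef →
      Real.negMulLog ρ.trace.re + ∑ i, ghom γ ν ρ.trace.re (pop ρ i)
        ≤ nent (gadcPow γ ν n ρ) := by
  intro n
  induction n with
  | zero =>
    intro ρ hρ
    have hd : gadcPow γ ν 0 ρ
        = Matrix.diagonal fun x => ((ρ x x).re : ℂ) := by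
      ext x y
      obtain rfl : x = y := Subsingleton.elim _ _
      have hi : (ρ x x).im = 0 := (Complex.nonneg_iff.1 (hρ.diag_nonneg (i := x))).2.symm
      have e : gadcPow γ ν 0 ρ x x = ρ x x := by
        simp only [gadcPow, Fintype.sum_unique, Finset.univ_eq_empty, Finset.prod_empty, mul_one]
        exact congrArg₂ ρ (Subsingleton.elim _ _) (Subsingleton.elim _ _)
      rw [e, Matrix.diagonal_apply_eq]
      apply Complex.ext <;> simp [hi]
    rw [hd, nent_diagonal]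
    simp [Matrix.trace, Matrix.diag]
  | succ n ih =>
    intro ρ hρ
    set ω := stepOp γ ν ρ with hω
    have hωp : ω.PosSemidef := stepOp_posSemidef hγ hν hρ
    have hout : nent (gadcPow γ ν (n + 1) ρ) = nent (gadcLeft γ ν ω) := by
      rw [← nent_reindex (Fin.consEquiv fun _ : Fin (n + 1) => Fin 2) (gadcLeft γ ν ω)]
      congr 1
      ext x y
      obtain ⟨⟨a, x'⟩, rfl⟩ := (Fin.consEquiv fun _ : Fin (n + 1) => Fin 2).surjective x
      obtain ⟨⟨b, y'⟩, rfl⟩ := (Fin.consEquiv fun _ : Fin (n + 1) => Fin 2).surjective y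
      simp only [Matrix.reindex_apply, Matrix.submatrix_apply, Equiv.symm_apply_apply]
      exact gadcPow_succ_apply ρ a b x' y'
    have hb : ∀ a, blk ω a a = gadcPow γ ν n (split ρ a a) := fun a => rfl
    have hkey := key hγ hν hωp
    simp only [hb, trace_gadcPow] at hkey
    set p := (split ρ 0 0).trace.re with hp
    set q := (split ρ 1 1).trace.re with hq
    have h00 := split_posSemidef hρ 0
    have h11 := split_posSemidef hρ 1
    have hp0 : 0 ≤ p := (Complex.nonneg_iff.1 h00.trace_nonneg).1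
    have hq0 : 0 ≤ q := (Complex.nonneg_iff.1 h11.trace_nonneg).1
    have ih0 := ih (split ρ 0 0) h00
    have ih1 := ih (split ρ 1 1) h11
    rw [← hp] at ih0
    rw [← hq] at ih1
    rw [qub_eq_gmin hγ hν hp0 hq0] at hkey
    rw [hout, trace_split, ← hp, ← hq, Fin.sum_univ_succ, pop_zero, ← hq]
    have hsum : ∑ i : Fin n, ghom γ ν (p + q) (pop ρ i.succ)
        ≤ ∑ i, ghom γ ν p (pop (split ρ 0 0) i) + ∑ i, ghom γ ν q (pop (split ρ 1 1) i) := by
      rw [← Finset.sum_add_distrib]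
      refine Finset.sum_le_sum fun i _ => ?_
      rw [pop_succ]
      exact ghom_add_le hγ hν (pop_nonneg h00 i) (pop_le_trace h00 i) (pop_nonneg h11 i)
        (pop_le_trace h11 i)
    have hg : ghom γ ν (p + q) q = (p + q) * gmin γ ν (q / (p + q)) := rfl
    linarith

/-! ### Upper bound -/

theorem outPop_mem (hγ : γ ∈ Set.Icc (0:ℝ) 1) (hν : ν ∈ Set.Icc (0:ℝ) 1) {q : ℝ}
    (hq : q ∈ Set.Icc (0:ℝ) 1) : outPop γ ν q ∈ Set.Icc (0:ℝ) 1 := by
  unfold outPop
  constructor <;> nlinarith [hγ.1, hγ.2, hν.1, hν.2, hq.1, hq.2]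

theorem gmin_nonneg (hγ : γ ∈ Set.Icc (0:ℝ) 1) (hν : ν ∈ Set.Icc (0:ℝ) 1) {q : ℝ}
    (hq : q ∈ Set.Icc (0:ℝ) 1) : 0 ≤ gmin γ ν q := by
  obtain ⟨hc0, hc1⟩ := conc_mem hγ hν hq
  rw [gmin_eq_woot hγ hν, woot]
  have h1 : Real.sqrt (1 - conc γ ν q ^ 2) ≤ 1 :=
    Real.sqrt_le_one.2 (by nlinarith)
  exact Real.binEntropy_nonneg (by linarith) (by linarith [Real.sqrt_nonneg (1 - conc γ ν q ^ 2)])

theorem chi_bddAbove (hγ : γ ∈ Set.Icc (0:ℝ) 1) (hν : ν ∈ Set.Icc (0:ℝ) 1) :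
    BddAbove ((fun q => (Real.binEntropy (outPop γ ν q) - gmin γ ν q) / Real.log 2)
      '' Set.Icc 0 1) := by
  refine ⟨1, ?_⟩
  rintro _ ⟨q, hq, rfl⟩
  rw [div_le_one (Real.log_pos one_lt_two)]
  have := Real.binEntropy_le_log_two (p := outPop γ ν q)
  linarith [gmin_nonneg hγ hν hq]

theorem holevo_le {γ ν : ℝ} (hγ : γ ∈ Set.Icc (0:ℝ) 1) (hν : ν ∈ Set.Icc (0:ℝ) 1) (n : ℕ) :
    ∀ x ∈ holevoSet γ ν n, x ≤ n * chiFormula γ ν := by
  rintro x ⟨k, w, ρ, hw, hw1, hρ, rfl⟩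
  set ρb := ∑ j, (w j : ℂ) • ρ j with hρb
  have hρbp : ρb.PosSemidef :=
    Matrix.posSemidef_sum _ fun j _ => (hρ j).1.smul (by exact_mod_cast hw j)
  have hρbt : ρb.trace = 1 := by
    simp only [hρb, Matrix.trace_sum, Matrix.trace_smul, fun j => (hρ j).2, smul_eq_mul, mul_one]
    exact_mod_cast hw1
  set qb : Fin n → ℝ := fun i => ∑ j, w j * pop (ρ j) i with hqb
  have hq : ∀ j i, pop (ρ j) i ∈ Set.Icc (0:ℝ) 1 := fun j i =>
    ⟨pop_nonneg (hρ j).1 i, by simpa [(hρ j).2] using pop_le_trace (hρ j).1 i⟩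
  have hqbm : ∀ i, qb i ∈ Set.Icc (0:ℝ) 1 := fun i => by
    refine (convex_Icc (0:ℝ) 1).sum_mem (fun j _ => hw j) hw1 (fun j _ => hq j i) |> fun h => ?_
    simpa [hqb] using h
  have hpopb : ∀ i, pop ρb i = qb i := fun i => by
    simp only [hqb, hρb, pop, Finset.mul_sum, mul_ite, mul_zero]
    rw [Finset.sum_comm]
    refine Finset.sum_congr rfl fun x _ => ?_
    split_ifs
    · simp [Matrix.sum_apply, Complex.re_sum]
    · simp
  have hup : nent (∑ j, (w j : ℂ) • gadcPow γ ν n (ρ j))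
      ≤ ∑ i, Real.binEntropy (outPop γ ν (qb i)) := by
    rw [gadcPow_sum, ← hρb]
    refine (nent_le_sum_binEntropy (gadcPow_posSemidef hγ hν hρbp)
      (by rw [trace_gadcPow, hρbt, Complex.one_re])).trans (le_of_eq ?_)
    refine Finset.sum_congr rfl fun i _ => ?_
    rw [pop_gadcPow, hρbt, hpopb, Complex.one_re, mul_one, outPop, add_comm]
  have hlo : ∑ i, gmin γ ν (qb i) ≤ ∑ j, w j * nent (gadcPow γ ν n (ρ j)) := by
    calc ∑ i, gmin γ ν (qb i) ≤ ∑ i, ∑ j, w j * gmin γ ν (pop (ρ j) i) := by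
          refine Finset.sum_le_sum fun i _ => ?_
          have := (gmin_convexOn hγ hν).map_sum_le (t := Finset.univ) (w := w)
            (p := fun j => pop (ρ j) i) (fun j _ => hw j) hw1 (fun j _ => hq j i)
          simpa [smul_eq_mul, hqb] using this
      _ = ∑ j, w j * ∑ i, gmin γ ν (pop (ρ j) i) := by
          rw [Finset.sum_comm]; simp [Finset.mul_sum]
      _ ≤ _ := by
          refine Finset.sum_le_sum fun j _ => mul_le_mul_of_nonneg_left ?_ (hw j)
          have := nent_gadcPow_ge hγ hν (ρ j) (hρ j).1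
          simpa [(hρ j).2, ghom] using this
  have hchi : ∀ i, (Real.binEntropy (outPop γ ν (qb i)) - gmin γ ν (qb i)) / Real.log 2
      ≤ chiFormula γ ν := fun i =>
    le_csSup (chi_bddAbove hγ hν) ⟨qb i, hqbm i, rfl⟩
  have hl2 : 0 < Real.log 2 := Real.log_pos one_lt_two
  calc vnEntropy (∑ j, (w j : ℂ) • gadcPow γ ν n (ρ j))
        - ∑ j, w j * vnEntropy (gadcPow γ ν n (ρ j))
      = (nent (∑ j, (w j : ℂ) • gadcPow γ ν n (ρ j))
          - ∑ j, w j * nent (gadcPow γ ν n (ρ j))) / Real.log 2 := by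
        simp only [vnEntropy, sub_div, Finset.sum_div, mul_div_assoc]
    _ ≤ (∑ i, Real.binEntropy (outPop γ ν (qb i)) - ∑ i, gmin γ ν (qb i)) / Real.log 2 := by
        gcongr
    _ = ∑ i, (Real.binEntropy (outPop γ ν (qb i)) - gmin γ ν (qb i)) / Real.log 2 := by
        rw [← Finset.sum_sub_distrib, Finset.sum_div]
    _ ≤ ∑ _i : Fin n, chiFormula γ ν := Finset.sum_le_sum fun i _ => hchi i
    _ = n * chiFormula γ ν := by simp

/-! ### Achievability -/

/-- Pure one-qubit input with population `q` and phase `s`. -/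
noncomputable def pureIn (q : ℝ) (s : Fin 2) : Matrix (Fin 2) (Fin 2) ℂ :=
  fun a b => ((![Real.sqrt (1 - q), (-1 : ℝ) ^ (s : ℕ) * Real.sqrt q] a
    * ![Real.sqrt (1 - q), (-1 : ℝ) ^ (s : ℕ) * Real.sqrt q] b : ℝ) : ℂ)

theorem pureIn_trace {q : ℝ} (hq : q ∈ Set.Icc (0:ℝ) 1) (s : Fin 2) :
    (pureIn q s).trace = 1 := by
  have e1 := Real.mul_self_sqrt (sub_nonneg.2 hq.2)
  have e2 := Real.mul_self_sqrt hq.1
  simp only [Matrix.trace, Matrix.diag, pureIn, Fin.sum_univ_two, ← Complex.ofReal_add]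
  norm_cast
  fin_cases s <;> simp <;> linear_combination e1 + e2

theorem tens_pureIn_isState {n : ℕ} {q : ℝ} (hq : q ∈ Set.Icc (0:ℝ) 1) (s : Fin n → Fin 2) :
    IsState (tens fun i => pureIn q (s i)) := by
  refine ⟨?_, ?_⟩
  · set v : (Fin n → Fin 2) → ℂ := fun x =>
      ((∏ i, ![Real.sqrt (1 - q), (-1 : ℝ) ^ ((s i : ℕ)) * Real.sqrt q] (x i) : ℝ) : ℂ) with hv
    have h : tens (fun i => pureIn q (s i)) = Matrix.vecMulVec v (star v) := by
      ext x y
      simp only [tens, pureIn, Matrix.vecMulVec_apply, Pi.star_apply, hv, Complex.star_def,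
        Complex.conj_ofReal, ← Complex.ofReal_mul, ← Complex.ofReal_prod, Finset.prod_mul_distrib]
    rw [h]
    exact Matrix.posSemidef_vecMulVec_self_star v
  · simp [trace_tens, pureIn_trace hq]

theorem gadc_pureIn (hγ : γ ∈ Set.Icc (0:ℝ) 1) {q : ℝ} (hq : q ∈ Set.Icc (0:ℝ) 1) (s : Fin 2) :
    (gadc γ ν (pureIn q s)).IsHermitian ∧ (gadc γ ν (pureIn q s)).trace = 1 ∧
      (gadc γ ν (pureIn q s)).det
        = (((1 - outPop γ ν q) * outPop γ ν q - (1 - γ) * (q * (1 - q)) : ℝ) : ℂ) := by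
  have e1 := Real.mul_self_sqrt (sub_nonneg.2 hq.2)
  have e2 := Real.mul_self_sqrt hq.1
  have e3 := Real.mul_self_sqrt (sub_nonneg.2 hγ.2)
  set w := (-1 : ℝ) ^ (s : ℕ) * Real.sqrt q with hw
  have ew : w * w = q := by
    rw [hw, mul_mul_mul_comm, ← pow_add, e2]
    have : (-1 : ℝ) ^ ((s : ℕ) + s) = 1 := Even.neg_one_pow ⟨s, rfl⟩
    rw [this, one_mul]
  have h00 : gadc γ ν (pureIn q s) 0 0 = ((1 - outPop γ ν q : ℝ) : ℂ) := by
    simp [gadc, kern, pureIn, outPop, Fin.sum_univ_two, ← hw]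
    norm_cast
    linear_combination (1 - γ * ν) * e1 + γ * (1 - ν) * ew
  have h11 : gadc γ ν (pureIn q s) 1 1 = ((outPop γ ν q : ℝ) : ℂ) := by
    simp [gadc, kern, pureIn, outPop, Fin.sum_univ_two, ← hw]
    norm_cast
    linear_combination (γ * ν) * e1 + (1 - γ + γ * ν) * ew
  have h01 : gadc γ ν (pureIn q s) 0 1
      = ((Real.sqrt (1 - q) * w * Real.sqrt (1 - γ) : ℝ) : ℂ) := by
    simp [gadc, kern, pureIn, Fin.sum_univ_two, ← hw]
  have h10 : gadc γ ν (pureIn q s) 1 0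
      = ((Real.sqrt (1 - q) * w * Real.sqrt (1 - γ) : ℝ) : ℂ) := by
    simp [gadc, kern, pureIn, Fin.sum_univ_two, ← hw]
    left; ring
  refine ⟨?_, ?_, ?_⟩
  · ext a b
    fin_cases a <;> fin_cases b <;> simp [Matrix.conjTranspose_apply, h00, h11, h01, h10]
  · simp [Matrix.trace, Matrix.diag, Fin.sum_univ_two, h00, h11]
  · rw [Matrix.det_fin_two, h00, h11, h01, h10]
    norm_cast
    linear_combination -(w * w * (Real.sqrt (1 - γ) * Real.sqrt (1 - γ))) * e1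
      - (1 - q) * (Real.sqrt (1 - γ) * Real.sqrt (1 - γ)) * ew - q * (1 - q) * e3

theorem holevo_ge {γ ν : ℝ} (hγ : γ ∈ Set.Icc (0:ℝ) 1) (_hν : ν ∈ Set.Icc (0:ℝ) 1) (n : ℕ)
    {q : ℝ} (hq : q ∈ Set.Icc (0:ℝ) 1) :
    (n * ((Real.binEntropy (outPop γ ν q) - gmin γ ν q) / Real.log 2)) ∈ holevoSet γ ν n := by
  have e := (Fintype.equivFin (Fin n → Fin 2)).symm
  have hcard : Fintype.card (Fin n → Fin 2) = 2 ^ n := by simp
  refine ⟨Fintype.card (Fin n → Fin 2), fun _ => ((2 : ℝ) ^ n)⁻¹,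
    fun j => tens fun i => pureIn q (e j i), fun _ => by positivity, ?_,
    fun j => tens_pureIn_isState hq _, ?_⟩
  · rw [Finset.sum_const, Finset.card_univ, Fintype.card_fin, hcard, nsmul_eq_mul]
    push_cast
    exact mul_inv_cancel₀ (by positivity)
  have hone : ∀ j, nent (gadcPow γ ν n (tens fun i => pureIn q (e j i))) = n * gmin γ ν q := by
    intro j
    rw [gadcPow_tens, nent_tens _ (fun i => (gadc_pureIn hγ hq _).1)
      (fun i => (gadc_pureIn hγ hq _).2.1)]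
    have hi : ∀ i, nent (gadc γ ν (pureIn q (e j i))) = gmin γ ν q := fun i => by
      rw [nent_qubit (gadc_pureIn hγ hq _).1 (gadc_pureIn hγ hq _).2.1 (gadc_pureIn hγ hq _).2.2,
        gmin]
      congr 4
      ring
    simp [hi]
  have havg : ∑ j, ((((2 : ℝ) ^ n)⁻¹ : ℝ) : ℂ) • (tens fun i => pureIn q (e j i))
      = tens fun _ : Fin n => Matrix.diagonal fun a => ((![1 - q, q] a : ℝ) : ℂ) := by
    rw [Equiv.sum_comp e (fun s : Fin n → Fin 2 =>
      ((((2 : ℝ) ^ n)⁻¹ : ℝ) : ℂ) • (tens fun i => pureIn q (s i)))]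
    ext x y
    simp only [Matrix.sum_apply, Matrix.smul_apply, smul_eq_mul, tens, ← Finset.mul_sum]
    rw [← Fintype.prod_sum (fun i b => pureIn q b (x i) (y i)), show ((((2 : ℝ) ^ n)⁻¹ : ℝ) : ℂ)
      = ∏ _i : Fin n, ((2 : ℂ))⁻¹ by simp, ← Finset.prod_mul_distrib]
    refine Finset.prod_congr rfl fun i _ => ?_
    have e1 := Real.mul_self_sqrt (sub_nonneg.2 hq.2)
    have e2 := Real.mul_self_sqrt hq.1
    generalize x i = a
    generalize y i = b
    fin_cases a <;> fin_cases b <;>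
      simp [pureIn, Fin.sum_univ_two, -Complex.ofReal_mul, e1, e2] <;> ring
  have hbar : nent (∑ j, ((((2 : ℝ) ^ n)⁻¹ : ℝ) : ℂ) • gadcPow γ ν n (tens fun i => pureIn q (e j i)))
      = n * Real.binEntropy (outPop γ ν q) := by
    rw [gadcPow_sum, havg, gadcPow_tens]
    have hd : gadc γ ν (Matrix.diagonal fun a => ((![1 - q, q] a : ℝ) : ℂ))
        = Matrix.diagonal fun a => ((![1 - outPop γ ν q, outPop γ ν q] a : ℝ) : ℂ) := by
      ext a b
      fin_cases a <;> fin_cases b <;>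
        simp [gadc, kern, outPop, Fin.sum_univ_two] <;> ring
    rw [hd, nent_tens _ (fun _ => by
        rw [Matrix.IsHermitian, Matrix.diagonal_conjTranspose]; congr 1; funext a; simp)
      (fun _ => by simp [Matrix.trace_diagonal, Fin.sum_univ_two]),
      nent_diagonal]
    simp [Fin.sum_univ_two, Real.binEntropy_eq_negMulLog_add_negMulLog_one_sub]
    ring
  simp only [vnEntropy, hone, hbar, Finset.sum_const, Finset.card_univ,
    Fintype.card_fin, hcard, nsmul_eq_mul]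
  push_cast
  field_simp

theorem gadc_capacity {γ ν : ℝ} (hγ : γ ∈ Set.Icc (0:ℝ) 1) (hν : ν ∈ Set.Icc (0:ℝ) 1) :
    (∀ n : ℕ, BddAbove (holevoSet γ ν n) ∧ holevo γ ν n = n * holevo γ ν 1) ∧
      capacity γ ν = holevo γ ν 1 ∧ capacity γ ν = chiFormula γ ν := by
  have hb : ∀ n, BddAbove (holevoSet γ ν n) := fun n => ⟨_, holevo_le hγ hν n⟩
  have h0 : (0:ℝ) ∈ Set.Icc (0:ℝ) 1 := by simp
  have heq : ∀ n, holevo γ ν n = n * chiFormula γ ν := by
    intro n
    refine le_antisymm (csSup_le ⟨_, holevo_ge hγ hν n h0⟩ (holevo_le hγ hν n)) ?_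
    rcases Nat.eq_zero_or_pos n with rfl | hn
    · simpa [holevo] using le_csSup (hb 0) (holevo_ge hγ hν 0 h0)
    have hn' : (0:ℝ) < n := by exact_mod_cast hn
    rw [mul_comm, ← le_div_iff₀ hn']
    refine csSup_le (Set.Nonempty.image _ ⟨0, h0⟩) ?_
    rintro _ ⟨q, hq, rfl⟩
    rw [le_div_iff₀ hn', mul_comm]
    exact le_csSup (hb n) (holevo_ge hγ hν n hq)
  have h1 : holevo γ ν 1 = chiFormula γ ν := by simpa using heq 1
  have hcap : capacity γ ν = chiFormula γ ν := by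
    have : {x | ∃ n : ℕ, 1 ≤ n ∧ x = holevo γ ν n / n} = {chiFormula γ ν} := by
      ext x
      simp only [Set.mem_ofPred_eq, Set.mem_singleton_iff]
      constructor
      · rintro ⟨n, hn, rfl⟩
        rw [heq n, mul_div_cancel_left₀]
        exact_mod_cast (by omega : n ≠ 0)
      · rintro rfl
        exact ⟨1, le_rfl, by simp [h1]⟩
    rw [capacity, this, csSup_singleton]
  exact ⟨fun n => ⟨hb n, by rw [heq n, h1]⟩, hcap.trans h1.symm, hcap⟩

end VAgent.P358
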