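import Vale.Agent.P358.Defs

/-!
# P358: the scalar separable bound
-/

namespace VAgent.P358

open MeasureTheory Filter Topology Set

theorem Par.Ok.swap {P : Par} (h : P.Ok) : P.swap.Ok :=
  ⟨h.b0, h.b1, h.a0, h.a1, h.c0, by show P.c2 ≤ (1 - P.b) * (1 - P.a); linarith [h.cle, mul_comm (1 - P.a) (1 - P.b)],
    h.q0, h.p0⟩

theorem Par.kap_nonneg (P : Par) (y : ℝ) : 0 ≤ P.kap y := le_max_left _ _

/-- Positivity of the denominator. -/
theorem Par.den_pos {P : Par} (h : P.Ok) {y z : ℝ} (hy : 0 < y) (hz : 0 ≤ z) :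
    y * (z + (1 - P.b)) ≤ (y + (1 - P.a)) * (z + (1 - P.b)) - P.c2 ∧
      0 < (y + (1 - P.a)) * (z + (1 - P.b)) - P.c2 := by
  have hb : 0 < z + (1 - P.b) := by linarith [h.b1]
  have ha : 0 ≤ (1 - P.a) * z := mul_nonneg (by linarith [h.a1]) hz
  have h1 := h.cle
  have h2 : y * (z + (1 - P.b)) ≤ (y + (1 - P.a)) * (z + (1 - P.b)) - P.c2 := by nlinarith
  exact ⟨h2, lt_of_lt_of_le (mul_pos hy hb) h2⟩

theorem Par.dens_nonneg {P : Par} (h : P.Ok) {y : ℝ} (hy : 0 < y) : 0 ≤ P.dens y := by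
  obtain ⟨h1, h2⟩ := Par.den_pos h hy (P.kap_nonneg y)
  unfold Par.dens
  rw [sub_nonneg, div_le_div_iff₀ h2 hy]
  linarith

/-- Upper bounds on the density. -/
theorem Par.dens_le {P : Par} (h : P.Ok) {y : ℝ} (hy : 0 < y) :
    P.dens y ≤ 1 / y ∧ P.dens y ≤ (1 - P.a) / y ^ 2 := by
  obtain ⟨-, h2⟩ := Par.den_pos h hy (P.kap_nonneg y)
  have hb : 0 < P.kap y + (1 - P.b) := by linarith [P.kap_nonneg y, h.b1]
  have ha : 0 < y + (1 - P.a) := by linarith [h.a1]
  have h4 : 1 / (y + (1 - P.a)) ≤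
      (P.kap y + (1 - P.b)) / ((y + (1 - P.a)) * (P.kap y + (1 - P.b)) - P.c2) := by
    rw [div_le_div_iff₀ ha h2]; linarith [h.c0, mul_comm (y + (1 - P.a)) (P.kap y + (1 - P.b))]
  have h5 : 1 / y - 1 / (y + (1 - P.a)) ≤ (1 - P.a) / y ^ 2 := by
    rw [div_sub_div _ _ hy.ne' ha.ne', div_le_div_iff₀ (mul_pos hy ha) (pow_pos hy 2)]
    have := mul_nonneg (mul_nonneg (sub_nonneg.2 h.a1.le) hy.le) (sub_nonneg.2 h.a1.le)
    nlinarith
  have h6 : 0 < 1 / (y + (1 - P.a)) := by positivity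
  unfold Par.dens
  constructor <;> linarith

theorem Par.kap_continuous (P : Par) : Continuous P.kap := by
  unfold Par.kap; fun_prop

theorem Par.dens_continuousOn {P : Par} (h : P.Ok) : ContinuousOn P.dens (Set.Ioi 0) := by
  have hk := P.kap_continuous
  unfold Par.dens
  refine ContinuousOn.sub (continuousOn_const.div continuousOn_id fun x hx => ne_of_gt hx)
    (ContinuousOn.div (by fun_prop) (by fun_prop) fun x hx => ne_of_gt ?_)
  exact (Par.den_pos h hx (P.kap_nonneg x)).2

theorem integrableOn_inv_sq {y : ℝ} (hy : 0 < y) (C : ℝ) :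
    IntegrableOn (fun t : ℝ => C / t ^ 2) (Ioi y) := by
  refine IntegrableOn.congr_fun
    ((integrableOn_Ioi_rpow_of_lt (a := (-2 : ℝ)) (by norm_num) hy).const_mul C) ?_ measurableSet_Ioi
  intro t ht
  have : 0 < t := hy.trans ht
  simp [Real.rpow_neg this.le, div_eq_mul_inv]

theorem integral_inv_sq {y : ℝ} (hy : 0 < y) (C : ℝ) :
    ∫ t in Ioi y, C / t ^ 2 = C / y := by
  have h1 : ∫ t in Ioi y, C / t ^ 2 = ∫ t in Ioi y, C * t ^ (-2 : ℝ) := by
    refine setIntegral_congr_fun measurableSet_Ioi fun t ht => ?_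
    have : 0 < t := hy.trans ht
    simp [Real.rpow_neg this.le, div_eq_mul_inv]
  rw [h1, integral_const_mul, integral_Ioi_rpow_of_lt (by norm_num) hy,
    show (-2 : ℝ) + 1 = -1 by norm_num, Real.rpow_neg hy.le, Real.rpow_one]
  field_simp

theorem Par.dens_integrableOn {P : Par} (h : P.Ok) {y : ℝ} (hy : 0 < y) :
    IntegrableOn P.dens (Set.Ioi y) := by
  refine Integrable.mono' (integrableOn_inv_sq hy (1 - P.a))
    (((Par.dens_continuousOn h).mono (Ioi_subset_Ioi hy.le)).aestronglyMeasurable measurableSet_Ioi)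
    ((ae_restrict_mem measurableSet_Ioi).mono fun t ht => ?_)
  have ht0 : 0 < t := hy.trans ht
  rw [Real.norm_eq_abs, abs_of_nonneg (Par.dens_nonneg h ht0)]
  exact (Par.dens_le h ht0).2

theorem Par.phi_nonneg {P : Par} (h : P.Ok) {y : ℝ} (hy : 0 < y) : 0 ≤ P.phi y :=
  setIntegral_nonneg measurableSet_Ioi fun _ ht => Par.dens_nonneg h (hy.trans ht)

theorem Par.dens_intervalIntegrable {P : Par} (h : P.Ok) {u v : ℝ} (hu : 0 < u) (hv : 0 < v) :
    IntervalIntegrable P.dens volume u v := by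
  refine ContinuousOn.intervalIntegrable ((Par.dens_continuousOn h).mono ?_)
  intro t ht
  exact lt_of_lt_of_le (lt_min hu hv) ht.1

theorem Par.phi_sub {P : Par} (h : P.Ok) {u v : ℝ} (hu : 0 < u) (hv : 0 < v) :
    P.phi u - P.phi v = ∫ t in u..v, P.dens t :=
  intervalIntegral.integral_Ioi_sub_Ioi' (Par.dens_integrableOn h hu) (Par.dens_integrableOn h hv)

theorem Par.phi_hasDerivAt {P : Par} (h : P.Ok) {y : ℝ} (hy : 0 < y) :
    HasDerivAt P.phi (-P.dens y) y := by
  have h1 : HasDerivAt (fun v => ∫ t in (1 : ℝ)..v, P.dens t) (P.dens y) y := by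
    refine intervalIntegral.integral_hasDerivAt_right (Par.dens_intervalIntegrable h one_pos hy) ?_
      ((Par.dens_continuousOn h).continuousAt (Ioi_mem_nhds hy))
    exact (Par.dens_continuousOn h).stronglyMeasurableAtFilter isOpen_Ioi y hy
  refine (h1.const_sub (P.phi 1)).congr_of_eventuallyEq ?_
  filter_upwards [Ioi_mem_nhds hy] with v hv
  linarith [Par.phi_sub h one_pos (show (0 : ℝ) < v from hv)]

theorem Par.phi_continuousOn {P : Par} (h : P.Ok) : ContinuousOn P.phi (Set.Ioi 0) :=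
  fun _ hy => (Par.phi_hasDerivAt h hy).continuousAt.continuousWithinAt

theorem Par.kap_atTop {P : Par} (h : P.Ok) : Tendsto P.kap atTop atTop := by
  refine tendsto_atTop_mono (fun y => le_max_right _ _) ?_
  refine Tendsto.atTop_div_const h.q0 ?_
  exact tendsto_atTop_add_const_right _ _ (tendsto_atTop_add_const_right _ _
    (tendsto_id.const_mul_atTop h.p0))

theorem Par.phi_le {P : Par} (h : P.Ok) {t : ℝ} (ht : 0 < t) : P.phi t ≤ (1 - P.a) / t := by
  rw [← integral_inv_sq ht (1 - P.a)]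
  exact setIntegral_mono_on (Par.dens_integrableOn h ht) (integrableOn_inv_sq ht _) measurableSet_Ioi
    fun τ hτ => (Par.dens_le h (ht.trans hτ)).2

theorem Par.tendsto_mul_phi {P : Par} (h : P.Ok) :
    Tendsto (fun t => t * P.phi t) atTop (nhds (1 - P.a)) := by
  rw [tendsto_order]
  constructor
  · intro l hl
    obtain ⟨m, hlm, hm⟩ := exists_between hl
    have hk : Tendsto (fun τ => (1 - P.a) ^ 2 / τ + P.c2 / (P.kap τ + (1 - P.b))) atTop (𝓝 0) := by
      rw [← add_zero (0 : ℝ)]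
      exact (tendsto_const_nhds.div_atTop tendsto_id).add
        (tendsto_const_nhds.div_atTop (tendsto_atTop_add_const_right _ _ (Par.kap_atTop h)))
    obtain ⟨T, hT⟩ := eventually_atTop.1
      ((hk.eventually (ge_mem_nhds (sub_pos.2 hm))).and (eventually_gt_atTop 0))
    filter_upwards [eventually_ge_atTop T, eventually_gt_atTop 0] with t ht ht0
    have hge : ∀ τ ∈ Ioi t, m / τ ^ 2 ≤ P.dens τ := by
      intro τ hτ
      obtain ⟨he, hτ0⟩ := hT τ (ht.trans hτ.le)
      obtain ⟨h1, h2⟩ := Par.den_pos h hτ0 (P.kap_nonneg τ)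
      have hk0 : 0 < P.kap τ + (1 - P.b) := by linarith [P.kap_nonneg τ, h.b1]
      have ha : 0 < τ + (1 - P.a) := by linarith [h.a1]
      have e1 : P.dens τ = 1 / τ - 1 / (τ + (1 - P.a)) -
          P.c2 / ((τ + (1 - P.a)) * ((τ + (1 - P.a)) * (P.kap τ + (1 - P.b)) - P.c2)) := by
        unfold Par.dens
        generalize P.kap τ = k at h2 ⊢
        have e : (k + (1 - P.b)) / ((τ + (1 - P.a)) * (k + (1 - P.b)) - P.c2) = 1 / (τ + (1 - P.a)) +
            P.c2 / ((τ + (1 - P.a)) * ((τ + (1 - P.a)) * (k + (1 - P.b)) - P.c2)) := by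
          generalize hD : (τ + (1 - P.a)) * (k + (1 - P.b)) - P.c2 = D at h2 ⊢
          rw [div_add_div _ _ ha.ne' (mul_pos ha h2).ne',
            div_eq_div_iff h2.ne' (mul_pos ha (mul_pos ha h2)).ne', ← hD]
          ring
        rw [e]; ring
      have e2 : ((1 - P.a) - (1 - P.a) ^ 2 / τ) / τ ^ 2 ≤ 1 / τ - 1 / (τ + (1 - P.a)) := by
        rw [← sub_nonneg]
        have e2' : 1 / τ - 1 / (τ + (1 - P.a)) - ((1 - P.a) - (1 - P.a) ^ 2 / τ) / τ ^ 2 =
            (1 - P.a) ^ 3 / (τ ^ 3 * (τ + (1 - P.a))) := by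
          field_simp
          ring
        rw [e2']
        have : 0 ≤ 1 - P.a := by linarith [h.a1]
        positivity
      have e3 : P.c2 / ((τ + (1 - P.a)) * ((τ + (1 - P.a)) * (P.kap τ + (1 - P.b)) - P.c2)) ≤
          P.c2 / (P.kap τ + (1 - P.b)) / τ ^ 2 := by
        rw [div_div]
        refine div_le_div_of_nonneg_left h.c0 (by positivity) ?_
        calc (P.kap τ + (1 - P.b)) * τ ^ 2 = τ * (τ * (P.kap τ + (1 - P.b))) := by ring
          _ ≤ (τ + (1 - P.a)) * ((τ + (1 - P.a)) * (P.kap τ + (1 - P.b)) - P.c2) := by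
              gcongr
              linarith [h.a1]
      have e4 : m / τ ^ 2 ≤ ((1 - P.a) - (1 - P.a) ^ 2 / τ) / τ ^ 2 -
          P.c2 / (P.kap τ + (1 - P.b)) / τ ^ 2 := by
        rw [← sub_div]
        exact div_le_div_of_nonneg_right (by linarith) (by positivity)
      linarith
    have h3 : m / t ≤ P.phi t := by
      rw [← integral_inv_sq ht0 m]
      exact setIntegral_mono_on (integrableOn_inv_sq ht0 _) (Par.dens_integrableOn h ht0)
        measurableSet_Ioi hge
    rw [div_le_iff₀ ht0] at h3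
    linarith
  · intro u hu
    filter_upwards [eventually_gt_atTop 0] with t ht
    have := Par.phi_le h ht
    rw [le_div_iff₀ ht] at this
    linarith

/-- `phi` is integrable at zero (logarithmic singularity). -/
theorem Par.phi_intervalIntegrable {P : Par} (h : P.Ok) {T : ℝ} (hT : 0 ≤ T) :
    IntegrableOn P.phi (Set.Ioc 0 T) := by
  have hlog : IntegrableOn Real.log (Ioc 0 T) :=
    (intervalIntegrable_iff_integrableOn_Ioc_of_le hT).1 intervalIntegral.intervalIntegrable_log'
  refine Integrable.mono' (g := fun x => P.phi 1 + |Real.log x|) ?_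
    (((Par.phi_continuousOn h).mono fun x hx => hx.1).aestronglyMeasurable measurableSet_Ioc)
    ((ae_restrict_mem measurableSet_Ioc).mono fun y hy => ?_)
  · exact (integrableOn_const (hs := by simp [Real.volume_Ioc])).add hlog.norm
  have hy0 : 0 < y := hy.1
  rw [Real.norm_eq_abs, abs_of_nonneg (Par.phi_nonneg h hy0)]
  have hsub := Par.phi_sub h hy0 one_pos
  rcases le_total y 1 with hy1 | hy1
  · have hb : ∫ t in y..1, P.dens t ≤ ∫ t in y..1, 1 / t := by
      refine intervalIntegral.integral_mono_on hy1 (Par.dens_intervalIntegrable h hy0 one_pos) ?_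
        fun t ht => (Par.dens_le h (hy0.trans_le ht.1)).1
      refine ContinuousOn.intervalIntegrable (continuousOn_const.div continuousOn_id ?_)
      intro t ht
      exact ne_of_gt (lt_of_lt_of_le (lt_min hy0 one_pos) ht.1)
    rw [integral_one_div_of_pos hy0 one_pos, Real.log_div one_ne_zero hy0.ne', Real.log_one] at hb
    linarith [neg_abs_le (Real.log y)]
  · have : (0 : ℝ) ≤ ∫ t in (1 : ℝ)..y, P.dens t :=
      intervalIntegral.integral_nonneg hy1 fun t ht => Par.dens_nonneg h (one_pos.trans_le ht.1)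
    linarith [Par.phi_sub h one_pos hy0, abs_nonneg (Real.log y)]

/-- The gap in the separable bound. -/
noncomputable def Par.gap (P : Par) (y z : ℝ) : ℝ :=
  P.F y z - (Real.log y + P.phi y + (Real.log z + P.swap.phi z))

theorem Par.gap_swap (P : Par) (y z : ℝ) : P.swap.gap z y = P.gap y z := by
  simp only [Par.gap, Par.swap, Par.F]
  ring_nf

theorem Par.gap_hasDerivAt_fst {P : Par} (h : P.Ok) {y z : ℝ} (hy : 0 < y) (hz : 0 < z) :
    HasDerivAt (fun t => P.gap t z)
      ((z + (1 - P.b)) / ((y + (1 - P.a)) * (z + (1 - P.b)) - P.c2) - 1 / y + P.dens y) y := by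
  have hF : HasDerivAt (fun t => P.F t z)
      ((1 * (z + (1 - P.b))) / ((y + (1 - P.a)) * (z + (1 - P.b)) - P.c2)) y :=
    ((((hasDerivAt_id y).add_const (1 - P.a)).mul_const _).sub_const P.c2).log
      (Par.den_pos h hy hz.le).2.ne'
  have := hF.sub (((Real.hasDerivAt_log hy.ne').add (Par.phi_hasDerivAt h hy)).add_const
    (Real.log z + P.swap.phi z))
  refine this.congr_deriv ?_
  rw [one_mul, one_div]; ring

theorem Par.kap_on_line {P : Par} (h : P.Ok) {s : ℝ} (hz : 0 ≤ (s + P.a * P.p) / P.q) :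
    P.kap ((s + P.b * P.q) / P.p) = (s + P.a * P.p) / P.q := by
  have hp := h.p0.ne'
  have : (P.p * ((s + P.b * P.q) / P.p) - P.b * P.q + P.a * P.p) / P.q =
      (s + P.a * P.p) / P.q := by rw [mul_div_cancel₀ _ hp]; ring
  rw [Par.kap, this, max_eq_right hz]

theorem Par.gap_line_zero {P : Par} (h : P.Ok) {s₀ : ℝ}
    (hy : 0 < (s₀ + P.b * P.q) / P.p) (hz : 0 < (s₀ + P.a * P.p) / P.q) :
    P.gap ((s₀ + P.b * P.q) / P.p) ((s₀ + P.a * P.p) / P.q) = 0 := by
  set Y : ℝ → ℝ := fun s => (s + P.b * P.q) / P.p with hYdef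
  set Z : ℝ → ℝ := fun s => (s + P.a * P.p) / P.q with hZdef
  have hY : ∀ s, s₀ ≤ s → 0 < Y s := fun s hs => hy.trans_le (by
    have := h.p0; simp only [hYdef]; gcongr)
  have hZ : ∀ s, s₀ ≤ s → 0 < Z s := fun s hs => hz.trans_le (by
    have := h.q0; simp only [hZdef]; gcongr)
  have hd : ∀ s, s₀ ≤ s → HasDerivAt (fun r => P.gap (Y r) (Z r)) 0 s := by
    intro s hs
    have hy' := hY s hs
    have hz' := hZ s hs
    have hYd : HasDerivAt Y (1 / P.p) s := by
      simpa using ((hasDerivAt_id s).add_const (P.b * P.q)).div_const P.p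
    have hZd : HasDerivAt Z (1 / P.q) s := by
      simpa using ((hasDerivAt_id s).add_const (P.a * P.p)).div_const P.q
    have hD := (Par.den_pos h hy' hz'.le).2
    have hF : HasDerivAt (fun r => P.F (Y r) (Z r))
        ((1 / P.p * (Z s + (1 - P.b)) + (Y s + (1 - P.a)) * (1 / P.q)) /
          ((Y s + (1 - P.a)) * (Z s + (1 - P.b)) - P.c2)) s :=
      (((hYd.add_const (1 - P.a)).mul (hZd.add_const (1 - P.b))).sub_const P.c2).log hD.ne'
    have h1 : HasDerivAt (fun r => Real.log (Y r) + P.phi (Y r))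
        (1 / P.p / Y s + -P.dens (Y s) * (1 / P.p)) s :=
      (hYd.log hy'.ne').add ((Par.phi_hasDerivAt h hy').comp s hYd)
    have h2 : HasDerivAt (fun r => Real.log (Z r) + P.swap.phi (Z r))
        (1 / P.q / Z s + -P.swap.dens (Z s) * (1 / P.q)) s :=
      (hZd.log hz'.ne').add ((Par.phi_hasDerivAt h.swap hz').comp s hZd)
    refine (hF.sub (h1.add h2)).congr_deriv ?_
    have k1 : P.kap (Y s) = Z s := Par.kap_on_line h hz'.le
    have k2 : P.swap.kap (Z s) = Y s := Par.kap_on_line h.swap hy'.le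
    unfold Par.dens
    rw [k1, k2]
    simp only [Par.swap]
    rw [mul_comm (Z s + (1 - P.b)) (Y s + (1 - P.a))]
    ring
  have hYt : Tendsto Y atTop atTop :=
    (tendsto_atTop_add_const_right _ _ tendsto_id).atTop_div_const h.p0
  have hZt : Tendsto Z atTop atTop :=
    (tendsto_atTop_add_const_right _ _ tendsto_id).atTop_div_const h.q0
  have hphi : ∀ {Q : Par}, Q.Ok → Tendsto Q.phi atTop (𝓝 0) := by
    intro Q hQ
    refine squeeze_zero' ((eventually_gt_atTop 0).mono fun t ht => Par.phi_nonneg hQ ht)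
      ((eventually_gt_atTop 0).mono fun t ht => Par.phi_le hQ ht) ?_
    exact tendsto_const_nhds.div_atTop tendsto_id
  have hlim : Tendsto (fun r => P.gap (Y r) (Z r)) atTop (𝓝 0) := by
    have hr : Tendsto (fun r => Real.log ((1 + (1 - P.a) / Y r) * (1 + (1 - P.b) / Z r)
        - P.c2 / (Y r * Z r)) - (P.phi (Y r) + P.swap.phi (Z r))) atTop (𝓝 0) := by
      have e : (0 : ℝ) = Real.log ((1 + 0) * (1 + 0) - 0) - (0 + 0) := by simp
      rw [e]
      refine Tendsto.sub ((Tendsto.sub (Tendsto.mul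
        (tendsto_const_nhds.add (tendsto_const_nhds.div_atTop hYt))
        (tendsto_const_nhds.add (tendsto_const_nhds.div_atTop hZt)))
        (tendsto_const_nhds.div_atTop (hYt.atTop_mul_atTop₀ hZt))).log (by norm_num)) ?_
      exact ((hphi h).comp hYt).add ((hphi h.swap).comp hZt)
    refine hr.congr' ((eventually_ge_atTop s₀).mono fun r hr => ?_)
    have hy' := hY r hr
    have hz' := hZ r hr
    have hD := (Par.den_pos h hy' hz'.le).2
    have e : (1 + (1 - P.a) / Y r) * (1 + (1 - P.b) / Z r) - P.c2 / (Y r * Z r) =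
        ((Y r + (1 - P.a)) * (Z r + (1 - P.b)) - P.c2) / (Y r * Z r) := by
      generalize Y r = u at hy'
      generalize Z r = v at hz'
      field_simp
    rw [e, Real.log_div hD.ne' (mul_pos hy' hz').ne', Real.log_mul hy'.ne' hz'.ne']
    simp only [Par.gap, Par.F]
    ring
  have hconst : ∀ s, s₀ ≤ s → P.gap (Y s) (Z s) = P.gap (Y s₀) (Z s₀) := by
    intro s hs
    exact constant_of_has_deriv_right_zero
      (fun r hr => (hd r hr.1).continuousAt.continuousWithinAt)
      (fun r hr => (hd r hr.1).hasDerivWithinAt) s ⟨hs, le_rfl⟩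
  have : Tendsto (fun _ : ℝ => P.gap (Y s₀) (Z s₀)) atTop (𝓝 0) :=
    hlim.congr' ((eventually_ge_atTop s₀).mono fun r hr => hconst r hr)
  exact tendsto_nhds_unique tendsto_const_nhds this

theorem Par.gap_nonneg {P : Par} (h : P.Ok) {y z : ℝ} (hy : 0 < y) (hz : 0 < z)
    (hle : P.p * y - P.b * P.q + P.a * P.p ≤ P.q * z) : 0 ≤ P.gap y z := by
  set s := P.q * z - P.a * P.p with hs
  have hp := h.p0
  have hq := h.q0
  have hz1 : (s + P.a * P.p) / P.q = z := by rw [hs]; field_simp; ring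
  have hy1 : y ≤ (s + P.b * P.q) / P.p := by rw [le_div_iff₀ hp, hs]; linarith
  set y₁ := (s + P.b * P.q) / P.p with hy1def
  have h0 : P.gap y₁ z = 0 := by
    have := Par.gap_line_zero h (s₀ := s) (hy.trans_le hy1) (by rw [hz1]; exact hz)
    rwa [hz1] at this
  rw [← h0]
  have hanti : AntitoneOn (fun t => P.gap t z) (Icc y y₁) := by
    refine antitoneOn_of_hasDerivWithinAt_nonpos (convex_Icc _ _)
      (f' := fun t => (z + (1 - P.b)) / ((t + (1 - P.a)) * (z + (1 - P.b)) - P.c2) - 1 / t + P.dens t)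
      (fun t ht => (Par.gap_hasDerivAt_fst h (hy.trans_le ht.1) hz).continuousAt.continuousWithinAt)
      (fun t ht => ?_) fun t ht => ?_
    · rw [interior_Icc] at ht
      exact (Par.gap_hasDerivAt_fst h (hy.trans ht.1) hz).hasDerivWithinAt
    · rw [interior_Icc] at ht
      have ht0 : 0 < t := hy.trans ht.1
      have hk : P.kap t ≤ z := by
        refine max_le hz.le ?_
        rw [div_le_iff₀ hq]
        have h1 : P.p * t ≤ P.p * y₁ := mul_le_mul_of_nonneg_left ht.2.le hp.le
        rw [hy1def, mul_div_cancel₀ _ hp.ne', hs] at h1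
        linarith
      have hD1 := (Par.den_pos h ht0 (P.kap_nonneg t)).2
      have hD2 := (Par.den_pos h ht0 hz.le).2
      have key : (z + (1 - P.b)) / ((t + (1 - P.a)) * (z + (1 - P.b)) - P.c2) ≤
          (P.kap t + (1 - P.b)) / ((t + (1 - P.a)) * (P.kap t + (1 - P.b)) - P.c2) := by
        rw [div_le_div_iff₀ hD2 hD1]
        linarith [mul_le_mul_of_nonneg_left hk h.c0]
      simp only [Par.dens]
      linarith
  exact hanti ⟨le_rfl, hy1⟩ ⟨hy1, le_rfl⟩ hy1

/-- The separable lower bound. -/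
theorem Par.separable {P : Par} (h : P.Ok) {y z : ℝ} (hy : 0 < y) (hz : 0 < z) :
    Real.log y + P.phi y + (Real.log z + P.swap.phi z) ≤ P.F y z := by
  suffices h0 : 0 ≤ P.gap y z by unfold Par.gap at h0; linarith
  rcases le_total (P.p * y - P.b * P.q + P.a * P.p) (P.q * z) with hc | hc
  · exact Par.gap_nonneg h hy hz hc
  · rw [← P.gap_swap]
    refine Par.gap_nonneg h.swap hz hy ?_
    simp only [Par.swap]
    linarith

/-- Equality along the tightness line. -/
theorem Par.separable_eq {P : Par} (h : P.Ok) {s : ℝ} (hs : 0 < s) :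
    Real.log ((s + P.b * P.q) / P.p) + P.phi ((s + P.b * P.q) / P.p)
      + (Real.log ((s + P.a * P.p) / P.q) + P.swap.phi ((s + P.a * P.p) / P.q))
    = P.F ((s + P.b * P.q) / P.p) ((s + P.a * P.p) / P.q) := by
  have hp := h.p0
  have hq := h.q0
  have := mul_nonneg h.b0 hq.le
  have := mul_nonneg h.a0 hp.le
  have h0 := Par.gap_line_zero h (s₀ := s) (div_pos (by linarith) hp) (div_pos (by linarith) hq)
  unfold Par.gap at h0
  linarith

end VAgent.P358
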